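import Crest.Agent.N250.Xi.Main_Mg
import Crest.Agent.N250.R0.Leaf
import Crest.Agent.N250.R0.CjE
import Crest.Agent.N250.Se.Dic
import Crest.Agent.N250.Nq.Main
import Crest.Agent.N250.Wt.All
import Crest.Agent.N250.Lp.St
import Crest.Agent.N250.Wt.Grn2
import Crest.Agent.N250.Lg.Uq
import Crest.Agent.N250.Lg.Sl
import Crest.Agent.N250.Lg.Tube
import Crest.Agent.N250.Lg.Inst
import Crest.Agent.N250.R0.LGood_Mg
import Crest.Agent.N250.R0.LJac_Mg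
import Crest.Agent.N250.Wt.Mul
import Crest.Agent.N250.B1.Far
import Crest.Agent.N250.Act.Rot
import Crest.Agent.N250.B1.Far3
import Crest.Agent.N250.Act.Inst
import Crest.Agent.N250.Gi.Cau
import Crest.Agent.N250.Act.Rot3
import Crest.Agent.N250.Fv.End
import Crest.Agent.N250.Gc.Var2
import Crest.Agent.N250.Nq.Defs
import Crest.Agent.N250.Sw.Pg
import Crest.Agent.N250.Av.CoreX
import Crest.Agent.N250.Rm.Sm

-- ▼ part N250/Top/G
section

/-!
# Row 250: the statement from the gluing (helper20)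
-/

set_option autoImplicit false
open Crest.GeometryTopology.MCF

namespace Crest.Agent.N250.Top

theorem fin_G (hG : R0.GluedS) (M : ℝ → Set E)
    (T : ℝ) (hT : 0 < T) (hM : IsSmoothMCF M T) (hc : IsCompact (M 0)) (hconn : IsConnected (M 0))
    (x₀ : E) (hx : IsSingularPoint M T x₀) :
    ∃ S : Set E, IsSelfShrinker S ∧ RescalingsConvergeTo M T x₀ S :=
  TA.s0387_of_AL aStmt (ls_of Sg.statS_holds (fam_of hG Xi.xiS_holds)) M T hT hM hc hconn x₀ hx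

end Crest.Agent.N250.Top
end

-- ▼ part N250/R0/LNL
section

/-!
# Row 250 (helper76): the nonlinearity of the glued system, `NLL`
-/

set_option autoImplicit false
open Set Filter Topology
open scoped ComplexConjugate
open Crest.GeometryTopology.MCF

noncomputable section

namespace Crest.Agent.N250.Ph

open WS Gc Nq R0
open Crest.Agent.N250.Gl (HolAt)

section Jets

variable {X : Type} [TopologicalSpace X] [MeasurableSpace X] [BorelSpace X] [T2Space X]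
  [SecondCountableTopology X] {G : Geo X} {σ : Scale G} {κ : Type} [Fintype κ] {ψ : κ → G.R}
  (A : σ.Jets ψ) (hψ : G.GrnS ψ) (ξ : σ.AA × (κ → ℂ))
include hψ

theorem J0_cj : A.J0 (σ.cj ξ.1, star ξ.2) = σ.cj (A.J0 ξ) := Scale.AA_ext (by
  rw [σ.val_cj, A.val0, A.val0, σ.wG_cj hψ, map_mul G.cj, G.cj_oR])

theorem J1_cj (a : Fin 3) : A.J1 a (σ.cj ξ.1, star ξ.2) = σ.cj (A.J1 a ξ) := Scale.AA_ext (by
  rw [σ.val_cj, A.val1, A.val1, σ.wG_cj hψ, map_mul G.cj, G.cj_oR, G.cj_D])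

theorem J2_cj (a b : Fin 3) : A.J2 a b (σ.cj ξ.1, star ξ.2) = σ.cj (A.J2 a b ξ) :=
  Scale.AA_ext (by
    rw [σ.val_cj, A.val2, A.val2, σ.wG_cj hψ, map_mul G.cj, G.cj_oR, G.cj_D, G.cj_D])

end Jets

variable {S : Mv} {T : St S} {F : Fa T} {σ : Scale T.G}

/-- forgetting the rotations -/
def pr (F : Fa T) (σ : Scale T.G) : F.Ξ σ →L[ℂ] σ.AA × (F.I → ℂ) :=
  (ContinuousLinearMap.fst ℂ _ _).prod
    ((ContinuousLinearMap.fst ℂ _ _).comp (ContinuousLinearMap.snd ℂ _ _))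


/-- the angles of one end -/
def ang (T : St S) (j : Fin T.p) : T.Bt →L[ℂ] (Fin 2 → ℂ) :=
  ContinuousLinearMap.pi fun i => ContinuousLinearMap.proj (j, i)

/-- the infinitesimal rotations -/
def m0L (T : St S) : T.Bt →L[ℂ] Mt (Fin T.p) :=
  ContinuousLinearMap.pi fun j => (Ro.m0L (Cj.fQ (T.e.Q j))).comp (ang T j)


theorem diff_TT : Differentiable ℂ T.TT :=
  differentiable_pi.2 fun j => by
    have := (Ro.diff_TT (Cj.fQ (T.e.Q j))).comp (ang T j).differentiable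
    exact this

theorem hasF_TT : HasFDerivAt T.TT (m0L T) 0 :=
  hasFDerivAt_pi.2 fun j =>
    HasFDerivAt.comp (0 : T.Bt) (g := Ro.TT (Cj.fQ (T.e.Q j))) (f := ang T j)
      (by rw [map_zero]; exact Ro.hasFDerivAt_TT _) (ang T j).hasFDerivAt

theorem TT_zero : T.TT 0 = 0 := funext fun j => Ro.TT_zero (Cj.fQ (T.e.Q j))

theorem TT_star (β : T.Bt) : T.TT (star β) = star (T.TT β) :=
  funext fun j => funext fun c => funext fun d =>
    Ro.TT_conj (Ro.fQ_conj (T.e.Q j)) (fun i => β (j, i)) c d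

/-- the multipliers -/
def cL (F : Fa T) (σ : Scale T.G) : F.Ξ σ →L[ℂ] (F.I → ℂ) := -(σ.cL F.grn).comp (pr F σ)


variable (A : σ.Jets F.φ)

/-- the variables of the nonlinearity -/
def jv (ξ : F.Ξ σ) : Vr σ (Fin T.p) F.I :=
  (A.J0 (pr F σ ξ), fun a => A.J1 a (pr F σ ξ), fun a b => A.J2 a b (pr F σ ξ), T.TT ξ.2.2,
    cL F σ ξ)

theorem diff_jv : Differentiable ℂ (jv A) := by
  have := diff_TT (T := T)
  unfold jv
  fun_prop

theorem jv_zero : jv A 0 = 0 := by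
  simp only [jv, map_zero, Prod.snd_zero, TT_zero]; rfl

theorem tendsto_jv : Tendsto (jv A) (𝓝 0) (𝓝 0) :=
  (diff_jv A).continuous.tendsto' _ _ (jv_zero A)

theorem jv_cj (ξ : F.Ξ σ) : jv A (F.cj ξ) = cjV (jv A ξ) :=
  Prod.ext (J0_cj A F.grn (pr F σ ξ)) (Prod.ext (funext (J1_cj A F.grn (pr F σ ξ)))
    (Prod.ext (funext fun a => funext (J2_cj A F.grn (pr F σ ξ) a))
      (Prod.ext (TT_star _) (CjE.c_cj F ξ))))

theorem at_jv (ξ : F.Ξ σ) {p : S.sl 0} (hp : T.G.ζ.1 p = 1) : At (jv A ξ) (F.w ξ) p :=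
  at_jets A (pr F σ ξ) _ _ hp

theorem prT_fd (ξ : F.Ξ σ) : Dt.prT σ _ _ (fderiv ℂ (jv A) 0 ξ) = T.m0 ξ.2.2 := by
  have h1 := (Dt.prT σ _ _).hasFDerivAt.comp 0 (diff_jv A 0).hasFDerivAt
  have h2 : HasFDerivAt (fun ξ : F.Ξ σ => T.TT ξ.2.2) _ 0 :=
    HasFDerivAt.comp (0 : F.Ξ σ) (g := T.TT) (f := fun ξ : F.Ξ σ => ξ.2.2) hasF_TT
      hasFDerivAt_snd.snd
  exact DFunLike.congr_fun (h1.unique h2) ξ

theorem ρ_LL_ph (ξ : F.Ξ σ) (p : S.sl 0) : (T.G.ρ.1 p : ℂ) * ((T.G.SC.LL (F.w ξ)).1 p +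
    (F.D.ph (F.c ξ)).1 p) = (σ.val ξ.1).1 p := by
  have : T.G.oR T.G.ρ * (T.G.SC.LL (F.w ξ) + F.D.ph (F.c ξ)) = σ.val ξ.1 := by
    rw [mul_add, F.ρ_LL_w, Dt.ph, Finset.mul_sum]
    simp only [map_mul, mul_smul_comm]
    exact sub_add_cancel _ _
  rw [← this]; rfl

variable (o : F.D.Ok σ.ε)
include A o

theorem val_nq : ∀ᶠ ξ in 𝓝 (0 : F.Ξ σ), (σ.val (F.D.NQ σ (jv A ξ))).1 = F.nl ξ ∧
    ∀ p, T.G.ζ.1 p = 1 → F.D.Nd (F.w ξ) (T.TT ξ.2.2) (F.c ξ) p := by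
  filter_upwards [(tendsto_jv A).eventually (Dt.ev_NQ F.good o)] with ξ h
  refine ⟨funext fun p => ?_, fun p hp => (h _ _ (at_jv A ξ hp)).1⟩
  by_cases hp : T.χ'.1 p = 0
  · rw [Dt.NQ_off F.good o _ hp, Fa.nl, hp, Complex.ofReal_zero, zero_mul]
  · rw [(h _ _ (at_jv A ξ (F.good.cut p hp))).2, Fa.nl, ← ρ_LL_ph, add_assoc, mul_assoc, mul_add]
    rfl

theorem NL_eq : ∀ᶠ ξ in 𝓝 (0 : F.Ξ σ), F.NL ξ = F.D.NQ σ (jv A ξ) :=
  (val_nq A o).mono fun ξ h => by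
    rw [Fa.NL, ← h.1, T.sm_coe]
    exact Scale.AA_ext (EC.val_toA (σ.NN_val _))

theorem hasF_NL : HasFDerivAt (F.NL (σ := σ))
    ((-(F.D.rot σ).comp (Dt.prT σ _ _)).comp (fderiv ℂ (jv A) 0)) 0 :=
  (HasFDerivAt.comp (0 : F.Ξ σ) (g := F.D.NQ σ) (f := jv A)
    (by rw [jv_zero]; exact Dt.fd_NQ F.good o) (diff_jv A 0).hasFDerivAt).congr_of_eventuallyEq
    (NL_eq A o)

theorem fd_NL (ξ : F.Ξ σ) : fderiv ℂ F.NL 0 ξ = -F.D.rot σ (T.m0 ξ.2.2) := by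
  rw [(hasF_NL A o).fderiv, ← prT_fd A]; rfl

theorem nlD : F.NLD σ where
  val := by
    filter_upwards [val_nq A o, NL_eq A o] with ξ h e
    exact ⟨e ▸ h.1, h.2⟩
  hol := by
    filter_upwards [(NL_eq A o).eventually_nhds,
      (tendsto_jv A).eventually (Dt.hol_NQ F.good o)] with ξ e h
    exact (h.comp ξ (diff_jv A ξ)).congr_of_eventuallyEq e
  zero := by rw [(NL_eq A o).self_of_nhds, jv_zero, Dt.NQ_zero F.good o]
  fd ξ := by rw [fd_NL A o, map_neg, Dt.val_rot o]; rfl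
  cj := by
    have hc : Tendsto (F.cj (σ := σ)) (𝓝 0) (𝓝 0) :=
      tendsto_zero_iff_norm_tendsto_zero.2 (by
        simp only [CjE.norm_cj' F]; exact tendsto_norm_zero)
    filter_upwards [NL_eq A o, hc.eventually (NL_eq A o),
      (tendsto_jv A).eventually (Dt.cj_NQ F.good o)] with ξ h1 h2 h3
    rw [h1, h2, jv_cj, h3]

end Crest.Agent.N250.Ph

namespace Crest.Agent.N250.R0

/-- the jets of the Green operator exist -/
theorem Fa.sg_jo {S : Mv} {T : St S} (F : Fa T) : Sg fun σ : WS.Scale T.G =>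
    Nonempty (σ.Jets F.φ) ∧ F.D.Ok σ.ε := by
  filter_upwards [F.grn.nonempty_jets T.G.mainS, F.good.ok] with ε h1 h2 σ e
  exact ⟨h1 σ e, e ▸ h2⟩

theorem nlL : NLL := fun _ _ F => F.sg_jo.mono fun _ ⟨⟨A⟩, o⟩ => Ph.nlD A o

end Crest.Agent.N250.R0

end
end

-- ▼ part N250/Lp/Jh
section

/-!
# Row 250 (helper92): the cut-off rotation fields
-/

set_option autoImplicit false
open MeasureTheory Set Filter Topology
open scoped ContDiff InnerProductSpace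
open Crest.GeometryTopology.MCF

noncomputable section

namespace Crest.Agent.N250.Lp

open Po WS Wr EC R0 Gc

theorem JT_add {X : Type} [TopologicalSpace X] [MeasurableSpace X] (G : Geo X)
    (M M' : Fin 3 → Fin 3 → ℂ) : JT G (M + M') = JT G M + JT G M' := by
  simp only [JT, Pi.add_apply, add_smul, Finset.sum_add_distrib]

theorem JT_smul {X : Type} [TopologicalSpace X] [MeasurableSpace X] (G : Geo X) (c : ℂ)
    (M : Fin 3 → Fin 3 → ℂ) : JT G (c • M) = c • JT G M := by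
  simp only [JT, Pi.smul_apply, smul_eq_mul, mul_smul, Finset.smul_sum]

variable {S : Mv} (T : St S) (j : Fin T.p) {q : ℝ × ℝ}

theorem Jh_add (β β' : T.Bt) : Jh T (β + β') = Jh T β + Jh T β' := by
  simp only [Jh, ← Finset.sum_add_distrib, ← mul_add, ← JT_add]
  refine Finset.sum_congr rfl fun i _ => congrArg (fun M => _ * JT T.G M) ?_
  funext a b
  simp only [tilt, Pi.add_apply]; ring

theorem Jh_smul (c : ℂ) (β : T.Bt) : Jh T (c • β) = c • Jh T β := by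
  simp only [Jh, Finset.smul_sum, ← mul_smul_comm, ← JT_smul]
  refine Finset.sum_congr rfl fun i _ => congrArg (fun M => _ * JT T.G M) ?_
  funext a b
  simp only [tilt, Pi.smul_apply, smul_eq_mul]; ring

/-- `Jh` as a linear map -/
def JhL : T.Bt →ₗ[ℂ] T.G.SmC := ⟨⟨Jh T, Jh_add T⟩, Jh_smul T⟩

@[simp] theorem JhL_apply (β : T.Bt) : JhL T β = Jh T β := rfl

theorem Jh_eq (F : Fa T) (β : T.Bt) : dot (F.D.yy (T.m0 β)) T.G.SC.n = Jh T β := by
  rw [dot_yy]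
  exact Finset.sum_congr rfl fun i _ => congrArg (fun M => _ * JT T.G M) (m0_eq _ _)

theorem gC_Jh (β : T.Bt) : T.G.gC (Jh T β) ≠ ⊤ := (pg_Jh T β).gC

/-- `LL` of a cut-off rotation field lives where the cut-off is not constant -/
theorem sp_LL_JT {M : Fin 3 → Fin 3 → ℂ} (hM : ∀ a b, M a b = -M b a) :
    Sp (Kc T.P j (T.R + -3 / 2) (T.R + -1)) (T.G.SC.LL (T.G.oR (T.χr j) * JT T.G M)) := by
  intro p hp
  by_cases h : p ∈ Kh T.P j (T.R + -3 / 2)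
  · have h1 : ((p : E), (0 : ℝ)) ∈ tube T.e j (T.R + -1) :=
      ⟨not_le.1 fun h2 => hp ⟨h, h2⟩, (Kh_tube (R_lt T (by norm_num)) h).2⟩
    have h2 : ∀ᶠ y : S.sl 0 in 𝓝 p, ((y : E), (0 : ℝ)) ∈ tube T.e j (T.R + -1) :=
      ((isOpen_tube j _).preimage (continuous_subtype_val.prodMk continuous_const)).mem_nhds h1
    rw [LL_congr (g := JT T.G M) (h2.mono fun y hy => ?_), LL_JT hM]
    · rfl
    · change ((T.χr j).1 y : ℂ) * _ = _
      rw [show (T.χr j).1 y = 1 from chi_one (by linarith) hy]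
      simp
  · have : Sp (Kh T.P j (T.R + -3 / 2)) (T.G.oR (T.χr j) * JT T.G M) :=
      (sp_chiR (by linarith)).mul_right _
    rw [LL_congr (g := 0) (this.ev closed_Kh h), Mov.LL_zero T.G.dsC]; rfl

theorem sp_LL_Jh (β : T.Bt) :
    Sp (⋃ j, Kc T.P j (T.R + -3 / 2) (T.R + -1)) (T.G.SC.LL (Jh T β)) := fun p hp => by
  rw [Jh, ← T.G.LLL_apply, map_sum]
  change Cj.ev T.G p _ = 0
  rw [map_sum]
  exact Finset.sum_eq_zero fun i _ =>
    sp_LL_JT T i (tilt_skew _ _) p fun h => hp (mem_iUnion.2 ⟨i, h⟩)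

theorem cs_LL_Jh (β : T.Bt) : HasCompactSupport (T.G.SC.LL (Jh T β)).1 :=
  HasCompactSupport.intro (isCompact_iUnion fun _ => compact_Kc) (sp_LL_Jh T β)

theorem gC_LL_Jh (β : T.Bt) : T.G.gC (T.G.SC.LL (Jh T β)) ≠ ⊤ :=
  (Geo.pg_cpt (T.G.SC.LL (Jh T β)).2.continuous (cs_LL_Jh T β)).gC

theorem ze_LL_Jh {a b : ℝ} (ha : -1 ≤ a) (hab : a < b) (β : T.Bt) :
    T.G.oR (T.ze a b) * T.G.SC.LL (Jh T β) = T.G.SC.LL (Jh T β) := T.G.extC fun p => by
  change ((T.ze a b).1 p : ℂ) * _ = _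
  by_cases hp : p ∈ ⋃ j, Kc T.P j (T.R + -3 / 2) (T.R + -1)
  · obtain ⟨i, hi⟩ := mem_iUnion.1 hp
    rw [ze_tube T i (by linarith) hab (R_lt T (by norm_num)) hi.1,
      st_zero (by linarith) (by linarith [hi.2])]
    simp
  · rw [sp_LL_Jh T β p hp, mul_zero]

theorem chi_LL_Jh (β : T.Bt) : T.G.oR T.χ' * T.G.SC.LL (Jh T β) = T.G.SC.LL (Jh T β) :=
  ze_LL_Jh T (by norm_num) (by norm_num) β


theorem LL_Jh_st' (β : T.Bt) (hq : T.R + -1 < q.1) : (T.G.SC.LL (Jh T β)).1 (T.ψ j q) = 0 :=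
  sp_LL_Jh T β _ fun h => by
    obtain ⟨i, hi⟩ := mem_iUnion.1 h
    have h0 : T.e.R < q.1 := (R_lt T (by norm_num)).trans hq
    by_cases e : i = j
    · subst e
      have := hi.2
      rw [st_psi T i h0, Ec.xi_psi h0] at this
      linarith
    · exact not_Kh T j e (R_lt T (by norm_num)) h0 hi.1

theorem LL_Jh_st (β : T.Bt) (hq : T.R ≤ q.1) : (T.G.SC.LL (Jh T β)).1 (T.ψ j q) = 0 :=
  LL_Jh_st' T j β (by linarith)

theorem tau_Jh' (β : T.Bt) (hq : T.R + -1 ≤ q.1) : tau T.G (T.ψ j) (T.e.Q j) (T.e.r j) q *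
    (Jh T β).1 (T.ψ j q) = dR (T.e.r j) (fun l => β (j, l)) q := by
  rw [tau_Jh T j β ((R_lt T (by norm_num)).trans_le hq), st_one (by linarith) hq]
  simp

theorem Jh_st (β : T.Bt) (hq : T.R ≤ q.1) :
    T.rS j q / T.nu j q * (Jh T β).1 (T.ψ j q) = dR (T.e.r j) (fun l => β (j, l)) q := by
  rw [← st_tau T j ((R_lt' T).trans_le hq), tau_Jh' T j β (by linarith)]

end Crest.Agent.N250.Lp

end
end

-- ▼ part N250/Lg/Ex
section

/-! Row 250, block R0 (helper9): existence of the constraint family. -/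

set_option autoImplicit false
set_option linter.unusedSectionVars false
open MeasureTheory Set Filter Topology
open scoped InnerProductSpace
open Crest.GeometryTopology.MCF

noncomputable section

namespace Crest.Agent.N250

theorem Lin.Gd.Fam.congr {d : ℕ} {ι : Type} [Fintype ι] [DecidableEq ι] {X : Type}
    [TopologicalSpace X] [MeasurableSpace X] {G G' : Lin.Gd d ι X} {κ : Type} [Fintype κ]
    {ψ : κ → X → ℝ} (h : G.Fam ψ) (hM : G.M = G'.M) (hF : G.F = G'.F) (hc : G.c = G'.c) :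
    G'.Fam ψ := by
  cases G
  cases G'
  simp only at hM hF hc
  subst hM hF hc
  obtain ⟨c0, h0, h1⟩ := h.coer
  exact ⟨h.tst, h.li, c0, h0, fun u hu hk => h1 u ⟨⟨hu.sm, hu.l2⟩, hu.d1⟩ hk⟩

namespace R0

open WS Wr

variable {S : Mv}

/-- the core family: for `R` large it is supported in the ball of radius `R - 7` -/
theorem core_fam (S : Mv) : ∃ R1 : ℝ, ∀ T : St S, R1 ≤ T.R → ∃ (n0 : ℕ) (φ0 : Fin n0 → T.G.R),
    T.G.Fam φ0 ∧ ∀ k, ∀ p ∈ tsupport (φ0 k).1, ‖(p : E)‖ ≤ T.R - 7 := by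
  by_cases h : Nonempty (St S)
  swap
  · exact ⟨0, fun T => (h ⟨T⟩).elim⟩
  obtain ⟨T0⟩ := h
  obtain ⟨n0, φ0, hφ⟩ := T0.G.exists_fam
  have hK : IsCompact (⋃ k, tsupport (φ0 k).1) := isCompact_iUnion fun k => (hφ.tst k).cs
  obtain ⟨C, hC⟩ := (hK.image (f := fun p : S.sl 0 => ‖(p : E)‖)
    (continuous_subtype_val.norm)).bddAbove
  refine ⟨C + 7, fun T hT => ⟨n0, φ0, Lin.Gd.Fam.congr hφ rfl rfl rfl, fun k p hp => ?_⟩⟩
  have := hC ⟨p, mem_iUnion.2 ⟨k, hp⟩, rfl⟩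
  simp only at this
  linarith

theorem St.notMem_tube (T : St S) {x : E} {a b : ℝ} (h : ‖x‖ ≤ a) (hab : a ≤ b) (j : Fin T.p) :
    (x, (0 : ℝ)) ∉ tube T.e j b := fun hx => by
  have h1 : b < xi T.e j x := hx.1
  linarith [(le_abs_self _).trans (abs_xi_le (e := T.e) j x)]

/-- functions that vanish on the supports are orthogonal to the family -/
theorem St.ipR_eq_zero (T : St S) {φ u : T.G.R} {a : ℝ} (hφ : ∀ p ∈ tsupport φ.1, ‖(p : E)‖ ≤ a)
    (hu : ∀ p : S.sl 0, ‖(p : E)‖ ≤ a → u.1 p = 0) : T.G.ipR φ u = 0 := by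
  refine integral_eq_zero_of_ae (.of_forall fun p => ?_)
  by_cases h : p ∈ tsupport φ.1
  · simp [hu p (hφ p h)]
  · simp [image_eq_zero_of_notMem_tsupport h]

/-- a fast growing field on the end `j` -/
structure St.Uj (T : St S) (j : Fin T.p) (u : T.G.R) : Prop where
  l2 : T.G.gR u ≠ ⊤
  supp : ∀ p ∈ tsupport (T.G.S.LL u).1, ‖(p : E)‖ ≤ T.R - 1 ∧
    ∀ i, ((p : E), (0 : ℝ)) ∉ tube T.e i (T.R - 2)
  core : ∀ p : S.sl 0, ‖(p : E)‖ ≤ T.R - 7 → u.1 p = 0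
  off : ∀ i, j ≠ i → ∀ q : ℝ × ℝ, T.R ≤ q.1 → u.1 (T.ψ i q) = 0
  unb : Lg.Unb fun q => T.rS j q / T.nu j q * (u.1 (T.ψ j q) : ℂ)

theorem St.li_uj (T : St S) {u : Fin T.p → T.G.R} (h : ∀ j, T.Uj j (u j)) :
    LinearIndependent ℝ fun j => (u j).1 := by
  refine Fintype.linearIndependent_iff.2 fun c hc j => ?_
  obtain ⟨q, hq, h1⟩ := (h j).unb 0 T.R
  have h2 := congrFun hc (T.ψ j q)
  rw [Finset.sum_apply, Finset.sum_eq_single j (fun i _ hi => by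
    simp [(h i).off j hi q hq]) (by simp)] at h2
  refine (mul_eq_zero.1 h2).resolve_right fun h3 => ?_
  simp [h3] at h1

/-- **the constraint family** -/
theorem St.exists_sl (T : St S) {n0 : ℕ} {φ0 : Fin n0 → T.G.R} {u : Fin T.p → T.G.R}
    (hφ : T.G.Fam φ0) (s0 : ∀ k, ∀ p ∈ tsupport (φ0 k).1, ‖(p : E)‖ ≤ T.R - 7)
    (h : ∀ j, T.Uj j (u j)) : ∃ F : Fa T, F.Sl u := by
  have h1 : ∀ k l, T.G.ipR (φ0 k) (u l) = 0 := fun k l => T.ipR_eq_zero (s0 k) (h l).core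
  have hc : ∀ l, HasCompactSupport (T.G.S.LL (u l)).1 := fun l =>
    (compact_sl T.P.shr.closed ((T.R - 1) ^ 2)).of_isClosed_subset (isClosed_tsupport _)
      fun p hp => pow_le_pow_left₀ (norm_nonneg _) ((h l).supp p hp).1 2
  have h2 := Lin.Gd.Fam.sum (G := T.G.gd) (w := fun l => (u l).1) hφ
    (fun l => T.G.gd_s2.2 (h l).l2)
    (fun l => by rw [Geo.gd_L]; exact ⟨(T.G.S.LL (u l)).2, hc l⟩) h1 (T.li_uj h)
  have h3 : T.G.Fam (Sum.elim φ0 fun l => T.G.S.LL (u l)) := by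
    have e : (fun k => (Sum.elim φ0 (fun l => T.G.S.LL (u l)) k).1) =
        Sum.elim (fun k => (φ0 k).1) fun l => T.G.gd.L (u l).1 :=
      funext fun k => by
        rcases k with k | l
        · rfl
        · exact (T.G.gd_L _).symm
    change T.G.gd.Fam _
    rwa [e]
  refine ⟨⟨n0, _, h3, h3.grnS, ?_⟩, hφ, fun j => (h j).l2, fun _ => rfl, h1,
    fun i j hij => (h i).off j hij, fun j => (h j).unb⟩
  rintro (k | l)
  · exact fun p hp => ⟨(s0 k p hp).trans (by linarith), T.notMem_tube (s0 k p hp) (by linarith)⟩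
  · exact (h l).supp

theorem sl_of {e : Ends S} (h : Ev e fun T => ∀ j, ∃ u, T.Uj j u) :
    Ev e fun T => ∃ (F : Fa T) (u : Fin T.p → T.G.R), F.Sl u := by
  obtain ⟨R1, h1⟩ := core_fam S
  refine (h.and (Ev.of_R R1)).mono fun T _ ⟨h2, h3⟩ => ?_
  obtain ⟨n0, φ0, hφ, s0⟩ := h1 T h3
  choose u hu using h2
  obtain ⟨F, hF⟩ := T.exists_sl hφ s0 hu
  exact ⟨F, u, hF⟩

end R0

end Crest.Agent.N250

end
end

-- ▼ part N250/Lg/Uj2
section

/-! Row 250, block R0 (helper24): the cut fast growing Jacobi fields. -/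

set_option autoImplicit false
open Set Filter Topology
open scoped ContDiff
open Crest.GeometryTopology.MCF

noncomputable section

namespace Crest.Agent.N250

namespace Lg.U2

theorem jac_mono {v d : ℝ × ℝ → ℂ} {R R' : ℝ} (h : Jac v R d) (hR : R ≤ R') : Jac v R' d :=
  ⟨h.sm.mono (prod_mono_left (Ioi_subset_Ioi hR)), h.c1.mono (prod_mono_left (Ici_subset_Ici.2 hR)),
    h.per, fun q hq => h.eq q (hR.trans_lt hq),
    h.gr.imp fun _ h => h.imp fun _ h q hq => h q (hR.trans_lt hq)⟩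

theorem unb_congr {d d' : ℝ × ℝ → ℂ} {s : ℝ} (h : Unb d) (e : ∀ q : ℝ × ℝ, s ≤ q.1 → d' q = d q) :
    Unb d' := fun C x0 => by
  obtain ⟨q, h1, h2⟩ := h C (max x0 s)
  exact ⟨q, (le_max_left _ _).trans h1, by rwa [e q ((le_max_right _ _).trans h1)]⟩

theorem unb_re_or_im {d : ℝ × ℝ → ℂ} (h : Unb d) :
    (Unb fun q => ((d q).re : ℂ)) ∨ Unb fun q => ((d q).im : ℂ) := by
  by_contra hn
  simp only [Unb, not_or, not_forall, not_exists, not_and, not_lt] at hn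
  obtain ⟨⟨C, x, h1⟩, C', x', h2⟩ := hn
  obtain ⟨q, hq, h3⟩ := h (C + C') (max x x')
  have a1 := h1 q ((le_max_left _ _).trans hq)
  have a2 := h2 q ((le_max_right _ _).trans hq)
  rw [Complex.norm_real, Real.norm_eq_abs] at a1 a2
  linarith [Complex.norm_le_abs_re_add_abs_im (d q)]

open WS Wr Po R0 R0.St

variable {S : Mv} (T : St S) {j : Fin T.p} {q : ℝ × ℝ} {a : ℝ}

/-- the height above `R + a` on the tube `j` -/
def tt (j : Fin T.p) (a : ℝ) : T.G.R :=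
  mkR T.P.shr.reg (fun p => chi T.e j (T.R + (a - 1)) (T.R + a) p.1 * (xi T.e j p.1 - (T.R + a - 1)) - 1)
    (Mv.sm_of_contDiff ((((contDiff_chi j _ _).mul ((contDiff_xi j).sub contDiff_const)).sub
      contDiff_const).comp contDiff_fst))

theorem tt_apply (j : Fin T.p) (a : ℝ) (p : S.sl 0) :
    (tt T j a).1 p = (T.cu j (a - 1) a).1 p * (xi T.e j p - (T.R + a - 1)) - 1 := rfl

theorem tb (j : Fin T.p) (ha : -5 ≤ a) :
    Tb T.G (T.e.Q j) (T.e.r j) (T.ψ j) (tt T j a) (T.R + a) := by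
  have h0 : ∀ q : ℝ × ℝ, T.R + a ≤ q.1 → T.e.R < q.1 := fun q h =>
    (T.eR_lt (by linarith)).trans_le h
  refine ⟨by linarith [T.R_ge], fun q h => T.pl (h0 q h),
    T.ok_rS (Ioi_subset_Ioi (T.eR_lt (by linarith)).le), fun s θ h => T.ψ_per (h0 (s, θ) h) θ,
    fun q h => (T.r_gt (h0 q h)).le, fun q h => (T.r_lt (h0 q h)).le, fun q h => ?_, fun p hp => ?_⟩
  · rw [tt_apply, T.cu_ψ_one (by linarith) (by linarith) h, T.xi_ψ (h0 q h)]
    ring
  · rw [tt_apply] at hp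
    have h1 : (T.cu j (a - 1) a).1 p ≠ 0 := fun e => by rw [e] at hp; linarith
    obtain ⟨q, hq, -, rfl⟩ := T.exists_ψ (T.eR_lt (by linarith)).le
      (T.tube_of_cu (by linarith) (by linarith) h1)
    have h2 : T.e.R < q.1 := (T.eR_lt (by linarith)).trans hq
    refine ⟨q, ?_, rfl⟩
    rw [T.xi_ψ h2] at hp
    nlinarith [T.cu_le_one j (a - 1) a (T.ψ j q), T.cu_nonneg j (a - 1) a (T.ψ j q)]

/-- the complex cut field -/
theorem exists_w {R1 : ℝ} {d : ℝ × ℝ → ℂ} (hR : R1 + 4 ≤ T.R) (hd : Jac (T.vS j) R1 d) :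
    ∃ w : T.G.SmC, T.G.gC w ≠ ⊤ ∧
      (∀ p, w.1 p ≠ 0 → ∃ q : ℝ × ℝ, T.R - 3 ≤ q.1 ∧ T.ψ j q = p) ∧
      (∃ K, IsCompact K ∧ (∀ p ∉ K, (T.G.SC.LL w).1 p = 0) ∧
        ∀ p ∈ K, ∃ q : ℝ × ℝ, T.R - 3 ≤ q.1 ∧ q.1 ≤ T.R - 2 ∧ T.ψ j q = p) ∧
      ∀ q : ℝ × ℝ, T.R - 2 ≤ q.1 → T.rS j q / T.nu j q * w.1 (T.ψ j q) = d q := by
  have h := tb T j (a := -4) (by norm_num)
  have hd' : Jac (Lp.vS (T.e.r j)) (T.R + -4) d := jac_mono hd (by linarith)
  have hc := sp_cut (t := tt T j (-4)) one_lt_two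
  have h1 : ∀ p, 2 < (tt T j (-4)).1 p → (T.G.oR (cut (tt T j (-4)) 1 2)).1 p = 1 := fun p hp => by
    change ((cut (tt T j (-4)) 1 2).1 p : ℂ) = 1
    rw [cut_one one_lt_two hp.le, Complex.ofReal_one]
  have hq : ∀ p, 1 ≤ (tt T j (-4)).1 p →
      ∃ q : ℝ × ℝ, (tt T j (-4)).1 p = q.1 - (T.R + -4) ∧ T.ψ j q = p := fun p hp => by
    obtain ⟨q, h2, rfl⟩ := h.onto p (one_pos.trans_le hp)
    exact ⟨q, h.val q h2.le, rfl⟩
  refine ⟨lf T.G (T.e.Q j) (T.e.r j) (T.G.oR (cut (tt T j (-4)) 1 2)) d,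
    (h.pg_lf one_pos hc (fun p => ?_) hd').gC, fun p hp => ?_,
    ⟨_, h.cpt one_pos 2, fun p hp => ?_, fun p hp => ?_⟩, fun q h2 => ?_⟩
  · change ‖((cut (tt T j (-4)) 1 2).1 p : ℂ)‖ ≤ 1
    rw [Complex.norm_real]; exact abs_cut p
  · have h2 : 1 ≤ (tt T j (-4)).1 p := by_contra fun h' => hp (Tb.sp_lf hc p h')
    obtain ⟨q, e1, e2⟩ := hq p h2
    exact ⟨q, by linarith, e2⟩
  · rcases not_and_or.1 hp with hp | hp
    · exact Tb.sp_LL (h.zn one_pos).cl (Tb.sp_lf hc) p hp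
    · exact h.LL_lf' one_pos hc hd' zero_le_two h1 (not_le.1 hp)
  · obtain ⟨q, e1, e2⟩ := hq p hp.1
    exact ⟨q, by linarith [hp.1], by linarith [hp.2], e2⟩
  · have h3 : T.e.R < q.1 := T.eR_lt' (by linarith)
    have h4 : T.R + -4 ≤ q.1 := by linarith
    have h5 : (T.G.oR (cut (tt T j (-4)) 1 2)).1 (T.ψ j q) = 1 := by
      change ((cut (tt T j (-4)) 1 2).1 _ : ℂ) = 1
      rw [cut_one one_lt_two (by rw [h.val q h4]; linarith), Complex.ofReal_one]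
    rw [h.lf_val one_pos hc hd'.ok h4, h5, one_mul, T.tau_eq h3,
      mul_div_cancel₀ _ (div_ne_zero (T.rS_ne h3) (T.nu_ne h3))]

theorem uj_of {u : T.G.R} (l2 : T.G.gR u ≠ ⊤)
    (h1 : ∀ p, u.1 p ≠ 0 → ∃ q : ℝ × ℝ, T.R - 3 ≤ q.1 ∧ T.ψ j q = p) {K : Set (S.sl 0)}
    (hK : IsCompact K) (h2 : ∀ p ∉ K, (T.G.S.LL u).1 p = 0)
    (h3 : ∀ p ∈ K, ∃ q : ℝ × ℝ, T.R - 3 ≤ q.1 ∧ q.1 ≤ T.R - 2 ∧ T.ψ j q = p)
    (h4 : Unb fun q => T.rS j q / T.nu j q * (u.1 (T.ψ j q) : ℂ)) : T.Uj j u := by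
  have ht : ∀ p, u.1 p ≠ 0 → ((p : E), (0 : ℝ)) ∈ Wr.tube T.e j (T.R - 4) := fun p hp => by
    obtain ⟨q, hq, rfl⟩ := h1 p hp
    exact T.ψ_tube (T.eR_lt' (by linarith)) (by linarith)
  have hs : Function.support (T.G.S.LL u).1 ⊆ K := fun p hp => by_contra fun h => hp (h2 p h)
  refine ⟨l2, fun p hp => ?_, fun p hp => by_contra fun h => ?_,
    fun i hi q hq => by_contra fun h => ?_, h4⟩
  swap
  · obtain ⟨q, hq, rfl⟩ := h1 p h
    have := abs_xi_le (e := T.e) j (T.ψ j q)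
    rw [T.xi_ψ (T.eR_lt' (by linarith))] at this
    linarith [le_abs_self q.1]
  · obtain ⟨q, a1, a2, rfl⟩ := h3 p (closure_minimal hs hK.isClosed hp)
    have h0 : T.e.R < q.1 := T.eR_lt' (by linarith)
    refine ⟨abs_le_of_sq_le_sq' ?_ (by linarith [T.R_ge]) |>.2, fun i hi => ?_⟩
    · rw [T.norm_ψ_sq h0]
      nlinarith [T.r_lt (j := j) h0, T.r_pos (j := j) h0, T.R_ge]
    · by_cases e : i = j
      · subst e
        have := hi.1
        rw [T.xi_ψ h0] at this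
        linarith
      · exact tube_disj e (T.ψ_tube h0 h0) (tube_mono (T.eR_lt' (by linarith)).le hi)
  · have h0 : T.e.R < q.1 := T.eR_lt_R.trans_le hq
    exact tube_disj hi (T.ψ_tube h0 h0) (tube_mono (T.eR_lt' (by linarith)).le (ht _ h))

/-- **the cut field** -/
theorem exists_uj {R1 : ℝ} {d : ℝ × ℝ → ℂ} (hR : R1 + 4 ≤ T.R) (hd : Jac (T.vS j) R1 d)
    (hu : Unb d) : ∃ u, T.Uj j u := by
  obtain ⟨w, l2, h1, ⟨K, hK, h2, h3⟩, h4⟩ := exists_w T hR hd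
  have hτ : ∀ q, T.rS j q / T.nu j q = ((T.e.r j q / T.nuR j q : ℝ) : ℂ) := fun q => by
    rw [Complex.ofReal_div]; rfl
  rcases unb_re_or_im hu with h | h
  · refine ⟨T.G.re w, uj_of T (T.G.gR_re_ne l2) (fun p hp => h1 p fun e => hp ?_) hK
      (fun p hp => ?_) h3 (unb_congr h (s := T.R - 2) fun q hq => ?_)⟩
    · change (w.1 p).re = 0
      rw [e, Complex.zero_re]
    · rw [← T.G.re_LL]
      change ((T.G.SC.LL w).1 p).re = 0
      rw [h2 p hp, Complex.zero_re]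
    · rw [← h4 q hq, hτ, Complex.re_ofReal_mul, Complex.ofReal_mul]; rfl
  · refine ⟨T.G.im w, uj_of T (T.G.gR_im_ne l2) (fun p hp => h1 p fun e => hp ?_) hK
      (fun p hp => ?_) h3 (unb_congr h (s := T.R - 2) fun q hq => ?_)⟩
    · change (w.1 p).im = 0
      rw [e, Complex.zero_im]
    · rw [← T.G.im_LL]
      change ((T.G.SC.LL w).1 p).im = 0
      rw [h2 p hp, Complex.zero_im]
    · rw [← h4 q hq, hτ, Complex.im_ofReal_mul, Complex.ofReal_mul]; rfl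

theorem ujL2 (h : JaL) (S : Mv) (e : Ends S) : Ev e fun T => ∀ j, ∃ u, T.Uj j u := by
  by_cases hT : Nonempty (St S)
  swap
  · exact Ev.of_forall fun T => (hT ⟨T⟩).elim
  obtain ⟨T0⟩ := hT
  choose R1 d _ hd hu using h S T0.P.Λ T0.P.shr T0.P.ar e
  obtain ⟨M, hM⟩ := (Set.finite_range R1).bddAbove
  refine (Ev.of_R (M + 4)).mono fun T he hR j => ?_
  subst he
  exact exists_uj T (R1 := R1 j) (by linarith [hM ⟨j, rfl⟩]) (hd j) (hu j)

/-- 28's hypothesis (a) -/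
theorem slL2 (h : JaL) (S : Mv) (e : Ends S) :
    Ev e fun T => ∃ (F : Fa T) (u : Fin T.p → T.G.R), F.Sl u := sl_of (ujL2 h S e)

end Lg.U2

end Crest.Agent.N250

end
end

-- ▼ part N250/Lg/LinL
section

/-!
# Row 250 (helper92): the data `Fa.In` exist
-/

set_option autoImplicit false
open Set

noncomputable section

namespace Crest.Agent.N250.R0

open WS Wr Lg Lp

variable {S : Mv}

/-- a height function of the end `j` -/
def St.tH (T : St S) (j : Fin T.p) : T.G.R :=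
  mkR T.reg (fun q => chi T.e j (T.R + -2) (T.R + -1) q.1 * (xi T.e j q.1 - (T.R + -2)) - 2)
    (Mv.sm_of_contDiff ((((contDiff_chi j _ _).mul ((contDiff_xi j).sub contDiff_const)).sub
      contDiff_const).comp contDiff_fst))

theorem St.tb_tH (T : St S) (j : Fin T.p) :
    Tb T.G (T.e.Q j) (T.e.r j) (T.ψ j) (T.tH j) T.R where
  R0 := T.R_pos.le
  pl _ h := T.pl (T.eR_lt_R.trans_le h)
  ok := T.ok_rS (Ioi_subset_Ioi T.eR_lt_R.le)
  per _ θ h := T.ψ_per (T.eR_lt_R.trans_le h) θ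
  one _ h := (T.r_gt (T.eR_lt_R.trans_le h)).le
  two _ h := (T.r_lt (T.eR_lt_R.trans_le h)).le
  val q h := by
    have h' := T.eR_lt_R.trans_le h
    change chi T.e j _ _ ((T.ψ j q).1, (0 : ℝ)).1 * (xi T.e j (T.ψ j q) - _) - 2 = _
    rw [chi_one (by linarith) (T.ψ_tube h' (by linarith)), T.xi_ψ h']
    ring
  onto p h := by
    change 0 < (T.P.chiR j (T.R + -2) (T.R + -1)).1 p * (xi T.e j p - (T.R + -2)) - 2 at h
    have h1 : p ∈ EC.Kh T.P j (T.R + -2) := by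
      by_contra h1
      rw [EC.chiR_zero (by linarith) h1] at h
      linarith
    have h2 : (T.P.chiR j (T.R + -2) (T.R + -1)).1 p ≤ 1 := chi_le_one j _ _ _
    have h3 := mul_le_of_le_one_left (sub_nonneg.2 h1.1) h2
    obtain ⟨q, a, -, b⟩ := T.exists_ψ (j := j) T.eR_lt_R.le (p := p)
      ⟨by change T.R < xi T.e j p; linarith, (EC.Kh_tube (T.eR_lt (by norm_num)) h1).2⟩
    exact ⟨q, a, b⟩

theorem in_ex (S : Mv) (T : St S) (F : Fa T) : ∃ t Ph Jh, F.In t Ph Jh :=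
  ⟨T.tH, fun j d => Lp.Ph T j d, JhL T,
    { tb := T.tb_tH
      Ph_l2 := fun j _ h => Ph_l2 T j h
      Ph_sL := fun j _ h => Ph_sL T j h
      Ph_ip := fun k j _ => Ph_ip T j F k
      Ph_bd := fun i j _ θ => Ph_bd T j i θ
      Jh_eq := Jh_eq T F
      Jh_l2 := gC_Jh T
      Jh_L2 := gC_LL_Jh T
      Jh_ip := ipC_Jh T F
      Jh_cut := chi_LL_Jh T
      Jh_LL := fun β j _ h => LL_Jh_st T j β h.le
      Jh_tau := fun β j _ h => Jh_st T j β h.le }⟩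

theorem linL_of_sl (h : ∀ (S : Mv) (e : Ends S), Ev e fun T => ∃ (F : Fa T) (u : _), F.Sl u) :
    LinL := linL_of_in h in_ex

theorem linL_of (h : JaL) : LinL := linL_of_sl (U2.slL2 h)

end Crest.Agent.N250.R0

end
end

-- ▼ part N250/R0/LJa
section

/-!
# Row 250 (helper94): the leaf `JaL` from the other leaves
-/

set_option autoImplicit false

namespace Crest.Agent.N250.R0

open WS

theorem Sg.ex {S : Mv} {T : St S} {P : Scale T.G → Prop} (h : Sg P) : ∃ σ, P σ :=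
  let ⟨σ, hσ⟩ := T.G.exists_scale' T.G.mulS h
  ⟨σ, hσ σ rfl⟩

theorem jaL_of (hG : GoodL) (hE : EndL) (hJ : JacL) : JaL := by
  intro S Λ hS hΛ e j
  obtain ⟨T, rfl, hT⟩ := exL S Λ hS hΛ e _ (hG S e)
  obtain ⟨σ, ⟨En, rb, C0, h1⟩, h2⟩ := ((hE S T hT).and (hJ S T hT)).ex
  obtain ⟨d, hd, -⟩ := (h2 En rb C0 h1).jc j
  exact ⟨T.R, d, by linarith [T.hR], hd.jac, hd.unb⟩


end Crest.Agent.N250.R0
end

-- ▼ part N250/Gi/Tq1
section

/-! # Row 250 (helper75): the torque at the far circle is quadratic in the non-symmetric part -/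

set_option autoImplicit false

open Set Filter Topology Metric Complex intervalIntegral

noncomputable section

namespace Crest.Agent.N250.Far

open Act

lemma ii {f : ℝ → ℂ} (hf : ContinuousOn f (Icc 0 (2 * Real.pi))) :
    IntervalIntegrable f MeasureTheory.volume 0 (2 * Real.pi) :=
  (hf.mono (uIcc_of_le tp_pos).subset).intervalIntegrable

lemma int_le {f : ℝ → ℂ} {C : ℝ} (hf : ∀ θ ∈ Icc 0 (2 * Real.pi), ‖f θ‖ ≤ C) :
    ‖∫ θ in (0 : ℝ)..(2 * Real.pi), f θ‖ ≤ 2 * Real.pi * C := by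
  have := norm_integral_le_of_norm_le_const (a := 0) (b := 2 * Real.pi) (f := f) (C := C)
    (fun θ hθ => by rw [uIoc_of_le tp_pos] at hθ; exact hf θ (Ioc_subset_Icc_self hθ))
  rw [sub_zero, abs_of_nonneg tp_pos] at this
  linarith

/-- second order Taylor formula in the scaled variables -/
lemma tay_pt {G : ℂ × ℂ → ℂ} {M ε : ℝ} (hG : DifferentiableOn ℂ G (ball 0 (1 / 8)))
    (hM : ∀ z ∈ ball (0 : ℂ × ℂ) (1 / 8), ‖G z‖ ≤ M) (hε : ε ≤ 1 / 16) {u τ : ℂ} (hu : ‖u‖ ≤ ε)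
    (hτ : ‖τ‖ ≤ ε ^ 2) : (u, τ) ∈ ball (0 : ℂ × ℂ) (1 / 8) ∧ ‖G (u, τ) - G 0‖ ≤ 16 * M * ε ∧
      ‖G (u, τ) - G 0 - u * fderiv ℂ G 0 (1, 0)‖ ≤ 272 * M * ε ^ 2 := by
  have hε0 : 0 ≤ ε := (norm_nonneg _).trans hu
  have hM0 : 0 ≤ M := (norm_nonneg _).trans (hM 0 (mem_ball_self (by norm_num)))
  have hz : ‖(u, τ)‖ ≤ ε := max_le hu (hτ.trans (by nlinarith))
  have hz' : (u, τ) ∈ ball (0 : ℂ × ℂ) (1 / 8) := by rw [mem_ball_zero_iff]; linarith
  refine ⟨hz', ?_, ?_⟩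
  · refine (H.lip_le hG hM hz').trans ?_
    rw [sub_zero]
    have := mul_le_mul_of_nonneg_left hz (show 0 ≤ 2 * M / (1 / 8) by positivity)
    linarith
  set D := fderiv ℂ G 0 with hD
  have hDn : ‖D‖ ≤ 2 * M / (1 / 8) := H.fd_le (by norm_num) hG hM
  have h1 := H.tay2 hG hM hz'
  rw [sub_zero, ← hD] at h1
  have h2 : D (u, τ) = u * D (1, 0) + D (0, τ) := by
    rw [← smul_eq_mul, ← map_smul, ← map_add]; simp
  have h3 : ‖D (0, τ)‖ ≤ 2 * M / (1 / 8) * ε ^ 2 := by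
    refine (D.le_opNorm _).trans (mul_le_mul hDn ?_ (norm_nonneg _) (by positivity))
    simpa [Prod.norm_def] using hτ
  have h4 : G (u, τ) - G 0 - u * D (1, 0) = (G (u, τ) - G 0 - D (u, τ)) + D (0, τ) := by
    rw [h2]; ring
  rw [h4]
  refine (norm_add_le _ _).trans ?_
  have h5 : (‖(u, τ)‖ / (1 / 8)) ^ 2 ≤ (ε / (1 / 8)) ^ 2 := by gcongr
  have h6 := mul_le_mul_of_nonneg_left h5 (show 0 ≤ 4 * M by positivity)
  nlinarith

/-- coefficient of `c` in the torque density -/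
def GA (X V P : ℂ) (z : ℂ × ℂ) : ℂ :=
  Ef X (V + ‖V‖ * z.1) / Complex.sqrt (Qs V P z) * (Qs V P z - P ^ 2 - X * P) * Rf (V + ‖V‖ * z.1)

/-- coefficient of `- q σ` in the torque density -/
def GB (X V P : ℂ) (z : ℂ × ℂ) : ℂ :=
  Ef X (V + ‖V‖ * z.1) / Complex.sqrt (Qs V P z) * (X * P) / Rf (V + ‖V‖ * z.1)

lemma Mx_eq {V : ℂ} (hV : 0 < V.re) (X P n t c σ : ℂ) : Mx X (V + n) P t c σ =
    GA X V P (n / ‖V‖, t ^ 2 / ‖V‖ ^ 2) * c - GB X V P (n / ‖V‖, t ^ 2 / ‖V‖ ^ 2) * (t * σ) := by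
  simp only [GA, GB, Mx, Wf, (Qs_eq hV P n t).1, (Qs_eq hV P n t).2]
  ring

section bounds
variable {X V P : ℂ} (hV : 0 < V.re) {z : ℂ × ℂ} (hz : z ∈ ball (0 : ℂ × ℂ) (1 / 8))
include hV hz

lemma two_v_slit : 2 * (V + ‖V‖ * z.1) ∈ slitPlane := by
  have h := Qs_slit (P := 0) (z := (z.1, 0)) hV (by simp; positivity) (by
    rw [mem_ball_zero_iff] at hz ⊢
    exact lt_of_le_of_lt (by simp [Prod.norm_def]) hz)
  simpa [Qs] using h

lemma Rf_norm : √‖V‖ ≤ ‖Rf (V + ‖V‖ * z.1)‖ ∧ ‖Rf (V + ‖V‖ * z.1)‖ ≤ 2 * √‖V‖ := by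
  obtain ⟨h1, h2⟩ := v_ge hV hz
  have h0 := V_pos hV hz
  have h3 := norm_add_le V (‖V‖ * z.1)
  rw [Rf, norm_csqrt, norm_mul, Complex.norm_two]
  refine ⟨Real.sqrt_le_sqrt (by linarith), ?_⟩
  rw [show 2 * √‖V‖ = √(4 * ‖V‖) by
    rw [Real.sqrt_mul (by norm_num), show (4 : ℝ) = 2 ^ 2 by norm_num, Real.sqrt_sq (by norm_num)]]
  exact Real.sqrt_le_sqrt (by linarith)

lemma Rf_diff : DifferentiableAt ℂ (fun z : ℂ × ℂ => Rf (V + ‖V‖ * z.1)) z :=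
  (differentiableAt_sqrt (two_v_slit hV hz)).comp z (by fun_prop)

variable (hP : ‖P‖ ^ 2 ≤ ‖V‖ / 4)
include hP

lemma GAB_diff : DifferentiableAt ℂ (GA X V P) z ∧ DifferentiableAt ℂ (GB X V P) z := by
  obtain ⟨h1, h2, h3⟩ := diff_parts (X := X) hV hP hz
  have h4 := Rf_diff hV hz
  have h5 : DifferentiableAt ℂ (Qs V P) z := by
    unfold Qs
    have := v_ne hV hz
    fun_prop (disch := exact mul_ne_zero two_ne_zero this)
  have h7 := Rf_ne (v_ne hV hz)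
  unfold GA GB
  constructor
  · fun_prop (disch := exact h3)
  · fun_prop (disch := assumption)

lemma GAB_le (hV4 : ‖V‖ ≤ 4) : ‖GA X V P z‖ ≤ 4 * ‖Ef X V‖ * (13 + ‖X * P‖) ∧
    ‖GB X V P z‖ ≤ 2 * ‖Ef X V‖ * ‖X * P‖ / ‖V‖ := by
  have h0 := V_pos hV hz
  have hs : 0 < √‖V‖ := Real.sqrt_pos.2 h0
  have h1 := Ef_le (X := X) hV hV4 hz
  obtain ⟨h2, h3⟩ := Qs_norm hV hP hz
  obtain ⟨h4, h5⟩ := Rf_norm hV hz
  have h6 : ‖Ef X (V + ‖V‖ * z.1) / Complex.sqrt (Qs V P z)‖ ≤ 2 * ‖Ef X V‖ / √‖V‖ := by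
    rw [norm_div, norm_csqrt]; gcongr
  constructor
  · have h7 : ‖Qs V P z - P ^ 2 - X * P‖ ≤ 13 + ‖X * P‖ := by
      refine (norm_sub_le _ _).trans (add_le_add ((norm_sub_le _ _).trans ?_) le_rfl)
      rw [norm_pow]; linarith
    rw [GA, norm_mul, norm_mul]
    refine (mul_le_mul (mul_le_mul h6 h7 (norm_nonneg _) (by positivity)) h5 (norm_nonneg _)
      (by positivity)).trans (le_of_eq ?_)
    field_simp; ring
  · rw [GB, norm_div, norm_mul]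
    calc _ ≤ 2 * ‖Ef X V‖ / √‖V‖ * ‖X * P‖ / √‖V‖ := by gcongr
      _ = 2 * ‖Ef X V‖ * ‖X * P‖ / (√‖V‖ * √‖V‖) := by field_simp
      _ = _ := by rw [Real.mul_self_sqrt h0.le]

end bounds

/-- **The torque at the cut.** `v = V + n(θ)`, `v_x = P` constant, `v_θ = t(θ)`, `|n|, |t| ≤ ε |V|`;
`1, n ⊥ c` and `t ⊥ σ`. -/
theorem tq_far {X V P : ℂ} {n t c σ : ℝ → ℂ} {ε : ℝ} (hV : 0 < V.re) (hV4 : ‖V‖ ≤ 4)
    (hP : ‖P‖ ^ 2 ≤ ‖V‖ / 4) (hε : ε ≤ 1 / 16)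
    (cn : ContinuousOn n (Icc 0 (2 * Real.pi))) (ct : ContinuousOn t (Icc 0 (2 * Real.pi)))
    (cc : ContinuousOn c (Icc 0 (2 * Real.pi))) (cσ : ContinuousOn σ (Icc 0 (2 * Real.pi)))
    (hn : ∀ θ ∈ Icc 0 (2 * Real.pi), ‖n θ‖ ≤ ε * ‖V‖)
    (ht : ∀ θ ∈ Icc 0 (2 * Real.pi), ‖t θ‖ ≤ ε * ‖V‖)
    (hc : ∀ θ ∈ Icc 0 (2 * Real.pi), ‖c θ‖ ≤ 1) (hσ : ∀ θ ∈ Icc 0 (2 * Real.pi), ‖σ θ‖ ≤ 1)
    (c0 : ∫ θ in (0 : ℝ)..(2 * Real.pi), c θ = 0)
    (n0 : ∫ θ in (0 : ℝ)..(2 * Real.pi), n θ * c θ = 0)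
    (t0 : ∫ θ in (0 : ℝ)..(2 * Real.pi), t θ * σ θ = 0) :
    ‖∫ θ in (0 : ℝ)..(2 * Real.pi), Mx X (V + n θ) P (t θ) (c θ) (σ θ)‖ ≤
      2 * Real.pi * (‖Ef X V‖ * ε ^ 2 * (14144 + 1120 * ‖X * P‖)) := by
  have h0 : 0 < ‖V‖ := hV.trans_le (Complex.re_le_norm V)
  have hu : ∀ θ ∈ Icc 0 (2 * Real.pi), ‖n θ / ‖V‖‖ ≤ ε := fun θ hθ => by
    rw [norm_div, Complex.norm_real, norm_norm, div_le_iff₀ h0]; exact hn θ hθ
  have hτ : ∀ θ ∈ Icc 0 (2 * Real.pi), ‖t θ ^ 2 / (‖V‖ : ℂ) ^ 2‖ ≤ ε ^ 2 := fun θ hθ => by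
    rw [norm_div, norm_pow, norm_pow, Complex.norm_real, norm_norm, div_le_iff₀ (by positivity),
      ← mul_pow]
    gcongr; exact ht θ hθ
  have hε0 : 0 ≤ ε := (norm_nonneg _).trans (hu 0 (left_mem_Icc.2 tp_pos))
  have dA : DifferentiableOn ℂ (GA X V P) (ball 0 (1 / 8)) := fun z hz =>
    (GAB_diff hV hz hP).1.differentiableWithinAt
  have dB : DifferentiableOn ℂ (GB X V P) (ball 0 (1 / 8)) := fun z hz =>
    (GAB_diff hV hz hP).2.differentiableWithinAt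
  have tA := fun θ hθ => tay_pt dA (fun _ hz => (GAB_le hV hz hP hV4).1) hε (hu θ hθ) (hτ θ hθ)
  have tB := fun θ hθ => tay_pt dB (fun _ hz => (GAB_le hV hz hP hV4).2) hε (hu θ hθ) (hτ θ hθ)
  have cz : ContinuousOn (fun θ => (n θ / ‖V‖, t θ ^ 2 / (‖V‖ : ℂ) ^ 2)) (Icc 0 (2 * Real.pi)) :=
    (cn.div_const _).prodMk ((ct.pow 2).div_const _)
  have cA := dA.continuousOn.comp cz fun θ hθ => (tA θ hθ).1
  have cB := dB.continuousOn.comp cz fun θ hθ => (tA θ hθ).1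
  set A : ℝ → ℂ := fun θ => GA X V P (n θ / ‖V‖, t θ ^ 2 / (‖V‖ : ℂ) ^ 2) with hA
  set B : ℝ → ℂ := fun θ => GB X V P (n θ / ‖V‖, t θ ^ 2 / (‖V‖ : ℂ) ^ 2) with hB
  change ContinuousOn A _ at cA
  change ContinuousOn B _ at cB
  set A0 := GA X V P 0
  set B0 := GB X V P 0
  set D := fderiv ℂ (GA X V P) 0 (1, 0)
  have e1 : ∀ θ, Mx X (V + n θ) P (t θ) (c θ) (σ θ) =
      ((A θ - A0 - n θ / ‖V‖ * D) * c θ - (B θ - B0) * (t θ * σ θ)) +
        (A0 * c θ + D / ‖V‖ * (n θ * c θ) - B0 * (t θ * σ θ)) := fun θ => by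
    rw [Mx_eq hV]; simp only [hA, hB]; ring
  have k1 : ContinuousOn (fun θ => (A θ - A0 - n θ / ‖V‖ * D) * c θ - (B θ - B0) * (t θ * σ θ))
      (Icc 0 (2 * Real.pi)) :=
    (((cA.sub continuousOn_const).sub ((cn.div_const _).mul continuousOn_const)).mul cc).sub
      ((cB.sub continuousOn_const).mul (ct.mul cσ))
  have k2 : ContinuousOn (fun θ => A0 * c θ) (Icc 0 (2 * Real.pi)) := continuousOn_const.mul cc
  have k3 : ContinuousOn (fun θ => D / ‖V‖ * (n θ * c θ)) (Icc 0 (2 * Real.pi)) :=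
    continuousOn_const.mul (cn.mul cc)
  have k4 : ContinuousOn (fun θ => B0 * (t θ * σ θ)) (Icc 0 (2 * Real.pi)) :=
    continuousOn_const.mul (ct.mul cσ)
  simp only [e1]
  rw [integral_add (ii k1) (((ii k2).add (ii k3)).sub (ii k4)),
    integral_sub ((ii k2).add (ii k3)) (ii k4), integral_add (ii k2) (ii k3), integral_const_mul,
    integral_const_mul, integral_const_mul, c0, n0, t0]
  simp only [mul_zero, add_zero, sub_zero]
  refine int_le fun θ hθ => (norm_sub_le _ _).trans ?_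
  rw [norm_mul, norm_mul, norm_mul]
  have a1 := mul_le_mul (tA θ hθ).2.2 (hc θ hθ) (norm_nonneg _) (by positivity)
  have a2 := mul_le_mul (tB θ hθ).2.1
    (mul_le_mul (ht θ hθ) (hσ θ hθ) (norm_nonneg _) (by positivity)) (by positivity) (by positivity)
  refine (add_le_add a1 a2).trans (le_of_eq ?_)
  field_simp; ring

end Crest.Agent.N250.Far
end
end

-- ▼ part N250/Gi/Tq
section

/-! # Row 250 (helper75): the torque of an end is quadratically small -/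

set_option autoImplicit false

open Set Filter Topology Metric Complex intervalIntegral

noncomputable section

namespace Crest.Agent.N250.Far

open B1

variable {ℓ : Ell}

/-- a function with modes `± 1` only, bounded by `1` -/
def M1 (f : ℝ → ℂ) : Prop :=
  (∀ θ, ‖f θ‖ ≤ 1) ∧ ∃ A B : ℂ, ∀ θ, f θ = A * Wi.ex 1 θ + B * Wi.ex (-1) θ

lemma m1_cos : M1 fun θ => (Real.cos θ : ℂ) :=
  ⟨fun θ => by rw [Complex.norm_real]; exact Real.abs_cos_le_one θ, 1 / 2, 1 / 2, fun θ => by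
    simp only [Wi.ex, ofReal_cos, Complex.cos]; push_cast; ring_nf⟩

lemma m1_sin : M1 fun θ => (Real.sin θ : ℂ) :=
  ⟨fun θ => by rw [Complex.norm_real]; exact Real.abs_sin_le_one θ, -I / 2, I / 2, fun θ => by
    simp only [Wi.ex, ofReal_sin, Complex.sin]; push_cast; ring_nf⟩

lemma M1.neg {f : ℝ → ℂ} (h : M1 f) : M1 fun θ => -f θ := by
  obtain ⟨h1, A, B, h2⟩ := h
  exact ⟨fun θ => by rw [norm_neg]; exact h1 θ, -A, -B, fun θ => by simp only [h2]; ring⟩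

lemma M1.cont {f : ℝ → ℂ} (h : M1 f) : Continuous f := by
  obtain ⟨-, A, B, h2⟩ := h
  rw [funext h2]
  exact (continuous_const.mul (Wi.continuous_ex _)).add (continuous_const.mul (Wi.continuous_ex _))

lemma M1.mean {f : ℝ → ℂ} (h : M1 f) : ∫ θ in (0 : ℝ)..(2 * Real.pi), f θ = 0 := by
  obtain ⟨-, A, B, h2⟩ := h
  simp only [h2]
  rw [integral_add (((Wi.continuous_ex _).const_mul _).intervalIntegrable _ _)
    (((Wi.continuous_ex _).const_mul _).intervalIntegrable _ _), integral_const_mul,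
    integral_const_mul, Wi.integral_ex, Wi.integral_ex]
  simp

lemma val_mode (u : Wi (om ℓ)) (s : II) (k : ℤ) :
    ∫ θ in (0 : ℝ)..(2 * Real.pi), Wi.ex (-k) θ * val u s θ = 2 * Real.pi * Wi.co u k s := by
  have h := Wi.integral_syn u k
  have h2 := (ContinuousMap.evalCLM ℂ s).intervalIntegral_comp_comm
    (((Wi.continuous_ex (-k)).smul (Wi.continuous_syn u)).intervalIntegrable
      (μ := MeasureTheory.volume) 0 (2 * Real.pi))
  simp only [Pi.smul_apply'] at h2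
  rw [h] at h2
  simpa [val] using h2

lemma M1.orth {f : ℝ → ℂ} (h : M1 f) {u : Wi (om ℓ)} {s : II} (h1 : Wi.co u 1 s = 0)
    (h2 : Wi.co u (-1) s = 0) : ∫ θ in (0 : ℝ)..(2 * Real.pi), val u s θ * f θ = 0 := by
  obtain ⟨-, A, B, h3⟩ := h
  have e : ∀ θ, val u s θ * f θ =
      A * (Wi.ex (- -1) θ * val u s θ) + B * (Wi.ex (-1) θ * val u s θ) := fun θ => by
    rw [h3, neg_neg]; ring
  simp only [e]
  rw [integral_add
    ((((Wi.continuous_ex _).fun_mul (val_cont u s)).const_mul _).intervalIntegrable _ _)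
    ((((Wi.continuous_ex _).fun_mul (val_cont u s)).const_mul _).intervalIntegrable _ _),
    integral_const_mul, integral_const_mul, val_mode, val_mode, h1, h2]
  simp

/-- **the torque at the cut**: symmetric slope `h`, `β = 0` -/
theorem tq_one {R K g g' X e : ℝ} {a h : ℂ} {c0 : CI} {Dt : Dat ℓ} {J : Jt ℓ} {c σ : ℝ → ℂ}
    (hg : Ex g g') (hK : 0 ≤ K) (hX : 2 ≤ X) (hA : Adm K X a) (he : e ≤ 1 / 64)
    (hj : IsJet c0 J) (hbc : BC Dt J) (hH : Dt.2.1 = Wi.single _ 0 h) (hp : Dt.2.2.1 = 0)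
    (hm : Dt.2.2.2 = 0) (hB : InB R K g g' X a e J) (hP : ‖a * X + h‖ ^ 2 ≤ ‖et a X‖ / 4)
    (hc : M1 c) (hσ : M1 σ) :
    ‖Act.torque 1 (ex (gam R X)) (Act.vf R X a J 0) (Act.vf R X a J 1) (Act.vf R X a J 3) c σ‖ ≤
      2 * Real.pi * Real.exp (-X ^ 2 / 4) * (X ^ (-g)) ^ 2 * (56 + 5 * (X * ‖a * X + h‖)) := by
  obtain ⟨hV, hV4, -, hρ⟩ := adm_V hK hX hA
  obtain ⟨g1, g2, g3⟩ := hg
  set V := et a X with hVd
  set P := a * X + h
  have hV0 : 0 < ‖V‖ := hV.trans_le (Complex.re_le_norm V)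
  have hX0 : 0 < X := by linarith
  have hxg : X ^ (-g) ≤ 1 := Real.rpow_le_one_of_one_le_of_nonpos (by linarith) (by linarith)
  have hxg0 : 0 < X ^ (-g) := Real.rpow_pos_of_pos hX0 _
  have hW : 0 ≤ W g g' a X := by unfold W; positivity
  have n1 := fun θ => val_le hB.b0 (s := i1) hbc.far0 (by rw [xr_one]; exact hρ)
    (by rw [xr_one]; exact hW) θ
  have n3 := fun θ => val_le hB.b3 (s := i1) (by rw [hj.t0]; simp) one_pos
    (by rw [xr_one]; exact hW) θ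
  rw [xr_one] at n1 n3
  have hκ : ‖V‖ ^ (g' - 1) ≤ 4 := by
    calc ‖V‖ ^ (g' - 1) ≤ (4 : ℝ) ^ (g' - 1) := Real.rpow_le_rpow hV0.le (by linarith) (by linarith)
      _ ≤ (4 : ℝ) ^ (1 : ℝ) := Real.rpow_le_rpow_of_exponent_le (by norm_num) (by linarith)
      _ = 4 := Real.rpow_one _
  have hle : e * W g g' a X ≤ X ^ (-g) / 16 * ‖V‖ := by
    have eW : W g g' a X = X ^ (-g) * ‖V‖ * ‖V‖ ^ (g' - 1) := by
      rw [W, ← hVd, mul_assoc, Real.rpow_sub_one hV0.ne']; field_simp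
    have h1 := mul_le_mul_of_nonneg_right he hW
    have h2 := mul_le_mul_of_nonneg_left hκ (mul_pos hxg0 hV0).le
    rw [eW] at h1 ⊢; linarith
  have f1 : Wi.co (J 0) 1 i1 = 0 := hbc.farp.trans hp
  have f2 : Wi.co (J 0) (-1) i1 = 0 := hbc.farm.trans hm
  have key := tq_far (X := X) (V := V) (P := P) (n := val (J 0) i1) (t := val (J 3) i1) (c := c)
    (σ := σ) (ε := X ^ (-g) / 16) hV (by linarith) hP (by linarith)
    (val_cont _ _).continuousOn (val_cont _ _).continuousOn hc.cont.continuousOn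
    hσ.cont.continuousOn (fun θ _ => (n1 θ).trans hle) (fun θ _ => (n3 θ).trans hle)
    (fun θ _ => hc.1 θ) (fun θ _ => hσ.1 θ) hc.mean (hc.orth f1 f2)
    (hσ.orth (by rw [hj.t0]; simp [f1]) (by rw [hj.t0]; simp [f2]))
  have e1 : Act.torque 1 (ex (gam R X)) (Act.vf R X a J 0) (Act.vf R X a J 1) (Act.vf R X a J 3) c σ =
      ∫ θ in (0 : ℝ)..(2 * Real.pi),
        Act.Mx X (V + val (J 0) i1 θ) P (val (J 3) i1 θ) (c θ) (σ θ) := by
    refine intervalIntegral.integral_congr fun θ _ => ?_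
    have e0 : projIcc (0 : ℝ) 1 zero_le_one 1 = i1 := projIcc_right _
    simp only [Act.vf, e0, ex_1, vj, gam_one, val_slope hbc hH, Matrix.cons_val_zero,
      Matrix.cons_val_one, Matrix.cons_val]
    rfl
  rw [e1]
  refine key.trans ?_
  have hE : ‖Act.Ef X V‖ ≤ Real.exp (-X ^ 2 / 4) := by
    rw [Act.Ef, Complex.norm_exp]
    refine Real.exp_le_exp.2 ?_
    have : (-(X : ℂ) ^ 2 / 4 - V / 2).re = -X ^ 2 / 4 - V.re / 2 := by
      rw [show (-(X : ℂ) ^ 2 / 4 - V / 2) = ((-X ^ 2 / 4 : ℝ) : ℂ) - V / 2 by push_cast; ring]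
      simp only [sub_re, ofReal_re, div_ofNat_re]
    rw [this]; linarith
  rw [norm_mul, Complex.norm_real, Real.norm_of_nonneg hX0.le]
  have h1 : 0 ≤ X * ‖P‖ := by positivity
  calc _ ≤ 2 * Real.pi * (Real.exp (-X ^ 2 / 4) * (X ^ (-g) / 16) ^ 2 *
        (256 * (56 + 5 * (X * ‖P‖)))) := by gcongr; linarith
    _ = _ := by ring

lemma slope_sq {N : ℕ} {X : ℝ} {V : ℂ} (h : HJ.Adm N X V) (hN : HJ.N0 ≤ N) (hX : 0 < X) :
    X * ‖HJ.slope N X V‖ ≤ 24 ∧ ‖HJ.slope N X V‖ ^ 2 ≤ ‖V‖ / 4 := by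
  have hN0 : (1000000 : ℝ) ≤ N := by exact_mod_cast hN
  have hs := slope_le h hN
  rw [Complex.norm_real, Real.norm_eq_abs, abs_of_pos hX] at hs
  have hV : 0 < ‖V‖ := h.hV.trans_le (re_le_norm _)
  have h1 := h.hw
  rw [HJ.ww, norm_div, norm_one, norm_mul, norm_mul, norm_pow, Complex.norm_real, Complex.norm_two,
    Real.norm_eq_abs, sq_abs, div_le_div_iff₀ (by positivity) (by positivity)] at h1
  refine ⟨by rwa [← le_div_iff₀' hX], (pow_le_pow_left₀ (norm_nonneg _) hs 2).trans ?_⟩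
  rw [div_pow, div_le_iff₀ (by positivity)]
  linarith

/-- **the torque of an end with the Hamilton–Jacobi slope**, on every circle `s` -/
theorem tq_HJ {N : ℕ} {R K g g' X e : ℝ} {a : ℂ} {Dt : Dat ℓ} {J : Jt ℓ} {c σ : ℝ → ℂ}
    (hN : HJ.N0 ≤ N) (hg : Ex g g') (hK : 0 ≤ K) (hX : 2 ≤ X) (hA : Adm K X a)
    (hA' : HJ.Adm N X (et a X)) (he : e ≤ 1 / 64) (hs : Sol R (X, a, Dt) J)
    (hH : Dt.2.1 = Wi.single _ 0 (HJ.slope N X (et a X) - a * X)) (hp : Dt.2.2.1 = 0)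
    (hm : Dt.2.2.2 = 0) (hB : InB R K g g' X a e J) (hr : RegJ R X a J)
    (h2 : ∀ s θ, 0 < (vj R X a J s θ 0).re) (A : Act.Ang c σ) (hc : M1 c) (hσ : M1 σ) {s : ℝ}
    (h : s ∈ Icc (0 : ℝ) 1) :
    ‖Act.torque s (ex (gam R X)) (Act.vf R X a J 0) (Act.vf R X a J 1) (Act.vf R X a J 3) c σ‖ ≤
      2 * Real.pi * Real.exp (-X ^ 2 / 4) * (X ^ (-g)) ^ 2 * 176 := by
  obtain ⟨k1, k2⟩ := slope_sq hA' hN (by linarith)
  have eP : a * X + (HJ.slope N X (et a X) - a * X) = HJ.slope N X (et a X) := by ring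
  have h3 := Act.torque_sol (z := (X, a, Dt)) hs hr
    (fun s θ => Or.inl (by have := h2 s θ; simp only [mul_re, re_ofNat, im_ofNat]; linarith)) A h
  refine (congrArg norm h3).trans_le
    ((tq_one hg hK hX hA he hs.jet hs.bc hH hp hm hB (by rwa [eP]) hc hσ).trans ?_)
  rw [eP]
  gcongr
  linarith

end Crest.Agent.N250.Far
end
end

-- ▼ part N250/Gi/Tq2
section

/-! # Row 250 (helper65): the axial torque and the full torque bound -/

set_option autoImplicit false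

open Set Filter Topology Metric Complex

noncomputable section

namespace Crest.Agent.N250.Far

open B1

variable {ℓ : Ell}

/-- the axial torque through the far circle -/
theorem ax_one {R K g g' X e : ℝ} {a h : ℂ} {c : CI} {Dt : Dat ℓ} {J : Jt ℓ} (hg : Ex g g')
    (hK : 0 ≤ K) (hX : 2 ≤ X) (hA : Adm K X a) (he : e ≤ 1 / 64) (hj : IsJet c J) (hbc : BC Dt J)
    (hH : Dt.2.1 = Wi.single _ 0 h) (hB : InB R K g g' X a e J)
    (hP : ‖a * X + h‖ ^ 2 ≤ ‖et a X‖ / 4) :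
    ‖Act.ax 1 (ex (gam R X)) (Act.vf R X a J 0) (Act.vf R X a J 1) (Act.vf R X a J 3)‖ ≤
      2 * Real.pi * Real.exp (-X ^ 2 / 4) * (X ^ (-g)) ^ 2 := by
  have hW := Gi.W_nonneg g g' a (x := X) (by linarith)
  have h0 : Wi.co (J 3) 0 i1 = 0 := by rw [hj.t0]; simp
  have hD : ∀ θ, ‖val (J 3) i1 θ‖ ≤ X ^ (-g) := fun θ => by
    have h1 := val_le hB.b3 h0 one_pos (by rw [xr_one]; exact hW) θ
    rw [xr_one] at h1
    have h2 := Gi.W_le hg hK hX hA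
    have h3 := mul_le_mul_of_nonneg_right he hW
    have h4 := Real.rpow_nonneg (x := X) (by linarith) (-g)
    linarith
  have key := far_form (R := R) (X' := 0) (a' := 0) (J' := fun _ => J 3) hg hK hX hA he hj hbc hH hB
    hP h0 hD
  have e1 : farI R X a J 0 0 (fun _ => J 3) = Act.ax 1 (ex (gam R X)) (Act.vf R X a J 0)
      (Act.vf R X a J 1) (Act.vf R X a J 3) := by
    have e : projIcc (0 : ℝ) 1 zero_le_one 1 = i1 := projIcc_right _
    simp only [farI, Act.ax, Act.OI, Act.vf, e, ex_1, gam_one, Mom_eq]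
    congr 1; funext θ
    simp [vj]
  have hP1 : ‖a * X + h‖ ≤ 1 := by
    have := (adm_V hK hX hA).2.1
    nlinarith [norm_nonneg (a * X + h)]
  rw [e1] at key
  simp only [mul_zero, zero_mul, zero_div, add_zero, sub_zero, norm_zero, zero_add] at key
  refine key.trans ?_
  have h4 := Real.rpow_nonneg (x := X) (by linarith) (-g)
  rw [sq (X ^ (-g)), ← mul_assoc _ (X ^ (-g)) (X ^ (-g))]
  exact mul_le_mul_of_nonneg_left (mul_le_of_le_one_left h4 hP1) (by positivity)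

/-- **the torque of a working end** for any infinitesimal rotation, through any circle -/
theorem tq_all {N : ℕ} {R K g g' X e A : ℝ} {a a₁ a₂ a₃ : ℂ} {Dt : Dat ℓ} {J : Jt ℓ}
    (hN : HJ.N0 ≤ N) (hg : Ex g g') (hK : 0 ≤ K) (hX : 2 ≤ X) (hA : Adm K X a)
    (hA' : HJ.Adm N X (et a X)) (he : e ≤ 1 / 64) (hs : Sol R (X, a, Dt) J)
    (hH : Dt.2.1 = Wi.single _ 0 (HJ.slope N X (et a X) - a * X)) (hp : Dt.2.2.1 = 0)
    (hm : Dt.2.2.2 = 0) (hB : InB R K g g' X a e J) (hr : RegJ R X a J)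
    (h2 : ∀ s θ, 0 < (vj R X a J s θ 0).re) (h₁ : ‖a₁‖ ≤ A) (h₂ : ‖a₂‖ ≤ A) (h₃ : ‖a₃‖ ≤ A)
    {s : ℝ} (h : s ∈ Icc (0 : ℝ) 1) :
    ‖Act.tq s R X a J a₁ a₂ a₃‖ ≤
      3 * (A * (2 * Real.pi * Real.exp (-X ^ 2 / 4) * (X ^ (-g)) ^ 2 * 176)) := by
  have eP : a * X + (HJ.slope N X (et a X) - a * X) = HJ.slope N X (et a X) := by ring
  refine Act.tq_le hr (fun s θ => Or.inl ?_)
    (tq_HJ hN hg hK hX hA hA' he hs hH hp hm hB hr h2 Act.ang_cos m1_cos m1_sin h)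
    (tq_HJ hN hg hK hX hA hA' he hs hH hp hm hB hr h2 Act.ang_sin m1_sin m1_cos.neg h) ?_ h₁ h₂ h₃
  · have := h2 s θ
    simp only [mul_re, re_ofNat, im_ofNat]; linarith
  · refine (congrArg norm (Act.ax_sol (z := (X, a, Dt)) hs hr h)).trans_le ((ax_one hg hK hX hA he
      hs.jet hs.bc hH hB (by rw [eP]; exact (slope_sq hA' hN (by linarith)).2)).trans ?_)
    exact le_mul_of_one_le_right (by positivity) (by norm_num)

end Crest.Agent.N250.Far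
end
end

-- ▼ part N250/Fv/Chain
section

/-!
# Row 250 (helper75): the end side of the glued first variation
-/

set_option autoImplicit false
open MeasureTheory Set Filter Topology
open scoped InnerProductSpace ContDiff
open Crest.GeometryTopology.MCF

noncomputable section

namespace Crest.Agent.N250.R0.Vc

open WS Wr B1 Gc
open Crest.Agent.N250.B2 (aa ofR)
open Crest.Agent.N250.Gi (KK)

variable {S : Mv} (T : St S)

theorem stp {a b : ℝ} (h : a < b) :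
    Fv.Stp a b (fun x => (st a b x : ℝ)) fun x => (deriv (st a b) x : ℝ) where
  d x := ((contDiff_st a b).differentiable (by simp) x).hasDerivAt.ofReal_comp
  c := Complex.continuous_ofReal.comp ((contDiff_st a b).continuous_deriv (by simp))
  lo x hx := by rw [st_zero h hx, Complex.ofReal_zero]
  hi x hx := by rw [st_one h hx, Complex.ofReal_one]

theorem det_pos (j : Fin T.p) {q : ℝ × ℝ} (hq : T.e.R < q.1) : 0 < Po.det (T.G.M.x ∘ T.ψ j) q := by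
  have h : T.G.M.x ∘ T.ψ j =ᶠ[𝓝 q] Po.pX (T.e.Q j) (T.e.r j) := (T.pl hq).eq
  have P := Po.ends_pol T.reg T.e j hq
  have e : Po.det (T.G.M.x ∘ T.ψ j) q = Po.det (Po.pX (T.e.Q j) (T.e.r j)) q := by
    simp only [Po.det, Po.d1, Po.d2, h.fderiv_eq]
  rw [e, P.det_eq]
  exact P.Qv_pos

theorem wrap (j : Fin T.p) {q : ℝ × ℝ} (hq : T.e.R < q.1) (h : q.2 ∈ Ico 0 (2 * Real.pi)) :
    ∃ θ ∈ Ioc (-Real.pi) Real.pi, T.ψ j (q.1, θ) = T.ψ j q ∧
      q.2 = if 0 ≤ θ then θ else θ + 2 * Real.pi := by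
  have := Real.pi_pos
  by_cases h1 : q.2 ≤ Real.pi
  · exact ⟨q.2, ⟨by linarith [h.1], h1⟩, rfl, (if_pos h.1).symm⟩
  · refine ⟨q.2 - 2 * Real.pi, ⟨by linarith, by linarith [h.2]⟩, ?_, ?_⟩
    · rw [← T.ψ_per hq, sub_add_cancel]
    · rw [if_neg (by linarith [h.2]), sub_add_cancel]

theorem inj_ψ (j : Fin T.p) {I : Set ℝ} (hI : I ⊆ Ioi T.e.R) :
    InjOn (T.ψ j) (I ×ˢ Ico 0 (2 * Real.pi)) := fun x hx y hy h => by
  obtain ⟨θ, h1, h2, h3⟩ := wrap T j (hI hx.1) hx.2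
  obtain ⟨θ', h1', h2', h3'⟩ := wrap T j (hI hy.1) hy.2
  have := T.injOn_ψ hI (j := j) (x₁ := (x.1, θ)) (x₂ := (y.1, θ')) ⟨hx.1, h1⟩ ⟨hy.1, h1'⟩
    (by rw [h2, h2', h])
  obtain ⟨e1, rfl⟩ := Prod.mk.inj this
  exact Prod.ext e1 (h3.trans h3'.symm)

theorem unwrap (j : Fin T.p) {q : ℝ × ℝ} (hq : T.e.R < q.1) :
    ∃ θ ∈ Ico 0 (2 * Real.pi), T.ψ j (q.1, θ) = T.ψ j q := by
  have hp : Function.Periodic (fun θ => T.ψ j (q.1, θ)) (2 * Real.pi) := T.ψ_per hq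
  obtain ⟨θ, h1, h2⟩ := hp.exists_mem_Ico₀ Real.two_pi_pos q.2
  exact ⟨θ, h1, h2.symm⟩

theorem zone (j : Fin T.p) {a b : ℝ} (ha : T.R ≤ a) (hab : a ≤ b) (hb : b ≤ T.R + 1) :
    Fv.Zone T.G (T.ψ j) T.R a b :=
  have h : ∀ {x : ℝ}, x ∈ Ioo a b → T.e.R < x := fun hx => T.eR_lt_R.trans (ha.trans_lt hx.1)
  ⟨ha, hab, hb, fun _ hq => T.pm (h hq), fun _ hq => det_pos T j (h hq), inj_ψ T j fun _ => h⟩

theorem disj {a b : ℝ} (ha : T.R ≤ a) :
    Pairwise fun i j => Disjoint (Fv.Kz (T.ψ i) a b) (Fv.Kz (T.ψ j) a b) := fun i j hij => by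
  refine Set.disjoint_left.2 ?_
  rintro _ ⟨q, hq, rfl⟩ ⟨q', hq', e⟩
  have h := T.eR_lt_R.trans (ha.trans_lt hq.1.1)
  have h' := T.eR_lt_R.trans (ha.trans_lt hq'.1.1)
  exact tube_disj hij (T.ψ_tube h' h') (e ▸ T.ψ_tube h h)

theorem D_ze {a b : ℝ} (ha : -7 < a) (hab : a < b) (p : S.sl 0)
    (hp : ∀ j, p ∉ Fv.Kz (T.ψ j) (T.R + a) (T.R + b)) (e : Fin 3) :
    (T.G.SC.D e (T.G.oR (T.ze a b))).1 p = 0 := by
  have key : (T.ze a b).1 p = 1 ∨ (T.ze a b).1 p = 0 := by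
    obtain ⟨c, h1, h2⟩ := exists_between (T.eR_lt ha)
    rcases T.off_or_ψ h1 h2 p with h | ⟨j, q, hq, rfl⟩
    · exact Or.inl (T.ze_off hab h)
    · have hq' := h1.trans hq
      by_cases k1 : q.1 ≤ T.R + a
      · exact Or.inl (T.ze_ψ_one ha hab hq' k1)
      by_cases k2 : T.R + b ≤ q.1
      · exact Or.inr (T.ze_ψ_zero ha hab k2)
      obtain ⟨θ, k3, k4⟩ := unwrap T j hq'
      exact (hp j ⟨(q.1, θ), ⟨⟨not_le.1 k1, not_le.1 k2⟩, k3⟩, k4⟩).elim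
  rw [T.G.D_oR]
  change ((T.G.M.pre.D e (T.ze a b).1 p : ℝ) : ℂ) = 0
  rw [Complex.ofReal_eq_zero]
  rcases key with h | h
  · exact N222.Imm.D_eq_zero_of_isLocalMax (.of_forall fun y => h ▸ T.ze_le_one a b y) e
  · have h1 := N222.Imm.D_eq_zero_of_isLocalMax (M := T.G.M) (f := fun y => -1 * (T.ze a b).1 y)
      (p := p) (.of_forall fun y => by
        have := T.ze_nonneg a b y
        simp only [h]; linarith) e
    rw [N222.Imm.D_const_mul _ (N222.Imm.Sm.diffAt (T.ze a b).2 p)] at h1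
    linarith

variable {T} {F : Fa T} {σ : Scale T.G} {N : ℕ} {ξ : ℂ × (F.I → ℂ) → F.Ξ σ} {ρ r X1 θ : ℝ}
  {q : ℂ × (F.I → ℂ)}

/-- the parameters of the end `j` along a family -/
def zq (N : ℕ) (ξ : ℂ × (F.I → ℂ) → F.Ξ σ) (j : Fin T.p) (q : ℂ × (F.I → ℂ)) : Par T.ℓ :=
  F.zE N q.1 (aa q.2) (ξ q) j



/-- the angles of the end `j` -/
def an (β : T.Bt) (j : Fin T.p) : Fin 2 → ℂ := fun i => β (j, i)

/-- the velocity of the frame -/
def fD (j : Fin T.p) (β β' : T.Bt) (i c : Fin 3) : ℂ :=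
  ∑ l, Ro.sk (an β' j 0 * Complex.cos (an β j 1)) (an β' j 1) (an β' j 0 * Complex.sin (an β j 1)) i l *
    fR (T.e.Q j) (an β j) l c

theorem hd_line {P V : Type*} [NormedAddCommGroup P] [NormedSpace ℂ P] [NormedAddCommGroup V]
    [NormedSpace ℂ V] {f : P → V} {q : P} (h : DifferentiableAt ℂ f q) (v : P) :
    HasDerivAt (fun u : ℂ => f (q + u • v)) (fderiv ℂ f q v) 0 := by
  have h1 : HasDerivAt (fun u : ℂ => q + u • v) v 0 := by
    simpa using ((hasDerivAt_id (0 : ℂ)).smul_const v).const_add q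
  exact h.hasFDerivAt.comp_hasDerivAt_of_eq 0 h1 (by simp)

section

variable (h : F.Gf N ξ ρ r X1 θ) (hq : q ∈ Om r (KK N - 1 / 4) X1 θ)
include h hq

theorem nhds : Om r (KK N - 1 / 4) X1 θ ∈ 𝓝 q :=
  (Gl.isOpen_Om h.r_pos _ (by linarith [h.X1_ge]) _).mem_nhds hq

theorem ev_line (v : ℂ × (F.I → ℂ)) : ∀ᶠ u : ℂ in 𝓝 0, q + u • v ∈ Om r (KK N - 1 / 4) X1 θ := by
  have hc : ContinuousAt (fun u : ℂ => q + u • v) 0 := by fun_prop
  exact hc.preimage_mem_nhds (by simpa using nhds h hq)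

theorem d_ξ : DifferentiableAt ℂ ξ q := h.hol.differentiableAt (nhds h hq)

theorem d_β : DifferentiableAt ℂ (fun q => (ξ q).2.2) q := (d_ξ h hq).snd.snd

theorem d_z (j : Fin T.p) : DifferentiableAt ℂ (zq N ξ j) q :=
  ((h.en j).big.diff ((h.en j).ow j hq)).comp q
    (f := fun q : ℂ × (F.I → ℂ) => (q.1, q.2 (Sum.inr j), F.bq ξ j q))
    (differentiableAt_fst.prodMk (DifferentiableAt.prodMk (by fun_prop)
      ((h.en j).hol.differentiableAt (nhds h hq))))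

theorem d_J (j : Fin T.p) : DifferentiableAt ℂ (Gi.Jq T.U N j (F.bq ξ j)) q :=
  ((h.en j).diff j).differentiableAt (nhds h hq)

theorem dom (j : Fin T.p) : zq N ξ j q ∈ T.Dm := (h.en j).dom j hq

theorem fd_z (j : Fin T.p) (v : ℂ × (F.I → ℂ)) : (fderiv ℂ (zq N ξ j) q v).1 = v.1 ∧
    (fderiv ℂ (zq N ξ j) q v).2.1 = v.2 (Sum.inr j) := by
  have h1 := hd_line (d_z h hq j) v
  have h2 : HasDerivAt (fun u : ℂ => (zq N ξ j (q + u • v)).1) (fderiv ℂ (zq N ξ j) q v).1 0 := h1.fst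
  have h3 : HasDerivAt (fun u : ℂ => (zq N ξ j (q + u • v)).2.1) (fderiv ℂ (zq N ξ j) q v).2.1 0 :=
    h1.snd.fst
  refine ⟨h2.unique ?_, h3.unique ?_⟩
  · change HasDerivAt (fun u : ℂ => q.1 + u * v.1) _ 0
    simpa using ((hasDerivAt_id (0 : ℂ)).mul_const v.1).const_add q.1
  · change HasDerivAt (fun u : ℂ => q.2 (Sum.inr j) + u * v.2 (Sum.inr j)) _ 0
    simpa using ((hasDerivAt_id (0 : ℂ)).mul_const (v.2 (Sum.inr j))).const_add (q.2 (Sum.inr j))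

theorem pb_eq (j : Fin T.p) {y : ℝ × ℝ} (h1 : T.R < y.1) (h2 : y.1 < T.R + 1 / 3) :
    Cj.pb (F.Y (ξ q)) (T.ψ j) y = Cj.pC (fR (T.e.Q j) (an (ξ q).2.2 j))
      (Fv.rS T.R (zq N ξ j q) (T.U (zq N ξ j q))) y := by
  have e := (h.mat q hq).mt j y h1 h2
  rw [Fa.Y, F.Xh_ψ _ _ (by linarith), Cj.pC, e, Cj.pC, Fv.rS, Act.Rf, Complex.sqrt, ← one_div]
  rfl


theorem mtc (hG : T.Good) (v : ℂ × (F.I → ℂ)) {V : Fin 3 → T.G.SmC}
    (dY : ∀ p, T.G.ζ.1 p = 1 → ∀ c,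
      HasDerivAt (fun u : ℂ => (F.Y (ξ (q + u • v)) c).1 p) ((V c).1 p) 0) (j : Fin T.p) :
    Fv.Mtc (T.ψ j) T.R (T.R + 1 / 10) (T.R + 1 / 3) (fun u => F.Y (ξ (q + u • v))) V
      (fun u => fR (T.e.Q j) (an (ξ (q + u • v)).2.2 j))
      (fD j (ξ q).2.2 (fderiv ℂ (fun q => (ξ q).2.2) q v))
      (fun u => zq N ξ j (q + u • v)) (fderiv ℂ (zq N ξ j) q v)
      (fun u => Gi.Jq T.U N j (F.bq ξ j) (q + u • v)) (fderiv ℂ (Gi.Jq T.U N j (F.bq ξ j)) q v) 0 where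
  dY y hy := dY _ (T.ζ_ψ (T.eR_lt' (by linarith [hy.1])) (by linarith [hy.2]))
  dF := by
    have h1 := hasDerivAt_pi.1 (hd_line (d_β h hq) v)
    have h2 : HasDerivAt (fun u : ℂ => an (ξ (q + u • v)).2.2 j)
        (an (fderiv ℂ (fun q => (ξ q).2.2) q v) j) 0 := hasDerivAt_pi.2 fun i => h1 (j, i)
    refine hasDerivAt_pi.2 fun i => hasDerivAt_pi.2 fun c => ?_
    have h3 := Ro.hasDerivAt_rf h2 (Cj.fQ (T.e.Q j)) i c
    rw [zero_smul, add_zero] at h3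
    exact h3
  on := .of_forall fun _ => on_fR _ _
  dz := hd_line (d_z h hq j) v
  dJ := hd_line (d_J h hq j) v
  jet := (ev_line h hq v).mono fun _ hu => (T.hU.sol _ (dom h hu j)).jet
  sol := T.hU.sol _ (dom h (ev_line h hq v).self_of_nhds j)
  reg := (hG.reg _ (dom h (ev_line h hq v).self_of_nhds j)).1
  slit := (hG.reg _ (dom h (ev_line h hq v).self_of_nhds j)).2
  mt := (ev_line h hq v).mono fun _ hu _ hy => pb_eq h hu j (by linarith [hy.1]) hy.2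

theorem d_A (hG : T.Good) (hA : DifferentiableAt ℂ (fun z => T.AC (F.Y z)) (ξ q)) :
    DifferentiableAt ℂ (F.Aq N ξ) q := by
  refine (hA.comp q (d_ξ h hq)).add (DifferentiableAt.fun_sum fun j _ => ?_)
  exact (Act.actC_diffAt ((stp (a := T.R + 1 / 10) (b := T.R + 1 / 3) (by linarith)).cut T.R).1 T.R
    (y := (q.1, q.2 (Sum.inr j), Gi.Jq T.U N j (F.bq ξ j) q)) (hG.reg _ (dom h hq j)).1).comp q
    (f := fun q : ℂ × (F.I → ℂ) => (q.1, q.2 (Sum.inr j), Gi.Jq T.U N j (F.bq ξ j) q))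
    (differentiableAt_fst.prodMk (DifferentiableAt.prodMk (by fun_prop) (d_J h hq j)))

/-- **the glued first variation** from its core part -/
theorem fd_A (hG : T.Good) (hA : DifferentiableAt ℂ (fun z => T.AC (F.Y z)) (ξ q))
    (v : ℂ × (F.I → ℂ)) {V : Fin 3 → T.G.SmC} {B : ℂ}
    (dY : ∀ p, T.G.ζ.1 p = 1 → ∀ c,
      HasDerivAt (fun u : ℂ => (F.Y (ξ (q + u • v)) c).1 p) ((V c).1 p) 0)
    (hC : fderiv ℂ (fun z => T.AC (F.Y z)) (ξ q) (fderiv ℂ ξ q v) =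
      B - ∫ p, T.G.fluxC (T.G.oR T.ζA) (F.Y (ξ q)) V p ∂T.G.M.mu) :
    fderiv ℂ (F.Aq N ξ) q v = B + ∑ j,
      (Far.farI T.R q.1 (q.2 (Sum.inr j)) (Gi.Jq T.U N j (F.bq ξ j) q) v.1 (v.2 (Sum.inr j))
        (fderiv ℂ (Gi.Jq T.U N j (F.bq ξ j)) q v) +
      -Fv.tqF T.R (zq N ξ j q) (Gi.Jq T.U N j (F.bq ξ j) q) (fR (T.e.Q j) (an (ξ q).2.2 j))
        (fD j (ξ q).2.2 (fderiv ℂ (fun q => (ξ q).2.2) q v))) := by
  have h1 := hd_line (hA.comp q (d_ξ h hq)) v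
  rw [fderiv_comp q hA (d_ξ h hq), ContinuousLinearMap.comp_apply, hC] at h1
  have h2 := Fv.glue_deriv (fun j => zone T j (by linarith) (by linarith) (by linarith))
    (disj T (by linarith)) (stp (a := T.R + 1 / 10) (b := T.R + 1 / 3) (by linarith))
    (g := T.G.oR T.ζA) (fun j y hy => by
      change (((T.ze _ _).1 (T.ψ j y) : ℝ) : ℂ) = _
      rw [T.ze_ψ (by norm_num) (by norm_num) (T.eR_lt' (by linarith [hy.1]))]
      push_cast; rfl)
    (D_ze T (by norm_num) (by norm_num)) (mtc h hq hG v dY) (B := B)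
    (FC := fun u => T.AC (F.Y (ξ (q + u • v)))) (by simp only [zero_smul, add_zero]; exact h1)
  have h3 := (hd_line (d_A h hq hG hA) v).unique h2
  simp only [zero_smul, add_zero, (fd_z h hq _ v).1, (fd_z h hq _ v).2, sub_eq_add_neg] at h3
  exact h3

end

end Crest.Agent.N250.R0.Vc

end
end

-- ▼ part N250/Fv/Bulk
section

/-!
# Row 250 (helper48): at a solution the bulk term of the first variation is the combination of the
variations of the pairings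
-/

set_option autoImplicit false
set_option linter.unusedSectionVars false
open MeasureTheory Set Filter Topology

noncomputable section

namespace Crest.Agent.N250

open Gc WS Cj

variable {X : Type} [TopologicalSpace X] [MeasurableSpace X] {G : Geo X} {J κ : Type}
  [Fintype J] [Fintype κ]

theorem WS.Geo.varC_sum (c : κ → ℂ) (g g' : κ → G.SmC) (Y V : Fin 3 → G.SmC) (p : X) :
    G.varC (∑ k, c k • g k) Y (∑ k, c k • g' k) V p = ∑ k, c k * G.varC (g k) Y (g' k) V p := by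
  have e : ∀ f : κ → G.SmC, (∑ k, c k • f k).1 p = ∑ k, c k * (f k).1 p := fun f => by
    rw [← Cj.ev_apply, map_sum]; rfl
  have d : ∀ a, G.SC.D a (∑ k, c k • g k) = ∑ k, c k • G.SC.D a (g k) := fun a => by
    simp only [← G.DL_apply, map_sum, map_smul]
  simp only [Geo.varC, d, e, Fin.sum_univ_three, Finset.sum_mul, mul_add, mul_sub, Finset.mul_sum,
    Finset.sum_add_distrib, Finset.sum_sub_distrib, Finset.sum_div]
  simp only [← Finset.sum_add_distrib, ← Finset.sum_sub_distrib]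
  exact Finset.sum_congr rfl fun k _ => by ring

namespace Nq.Dt

variable (D : Dt G J κ) {u u' : G.SmC} {T : Mt J} {c : κ → ℂ} {p : X} {V : Fin 3 → G.SmC}

theorem mul_ph (u : G.SmC) (c : κ → ℂ) : u * D.ph c = ∑ k, c k • (G.oR (D.φ k) * u) := by
  simp only [ph, Finset.mul_sum, mul_smul_comm, mul_comm]

/-- the cleared form of the equation -/
theorem eq_clear (n : D.Nd u T c p) (e : D.EQ u T c p = 0) :
    (G.SC.ELX (D.Xh u T)).1 p * (D.NZ u T).1 p * (1 - u.1 p * (D.ph c).1 p) =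
      2 * (G.SC.GX (D.Xh u T)).1 p * (D.Mu u T c).1 p := by
  have h1 := n.GX
  have h2 := n.NZ
  have h3 := n.d3
  rw [EQ, sub_eq_zero] at e
  field_simp at e
  linear_combination e

theorem bulk_on (n : D.Nd u T c p) (e : D.EQ u T c p = 0)
    (hV : ∀ a, (V a).1 p = u'.1 p * (D.VV T a).1 p) :
    G.bulkC 1 (D.Xh u T) V p = G.varC (u * D.ph c) (D.Xh u T) (u' * D.ph c) V p := by
  have k := D.eq_clear n e
  have s := Act.sqrt_sq' (z := (G.SC.GX (D.Xh u T)).1 p)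
  have s0 : Complex.sqrt ((G.SC.GX (D.Xh u T)).1 p) ≠ 0 := fun h => n.GX (by rw [← s, h]; simp)
  have hv : ∀ w : Fin 3 → ℂ, dot w (val V p) = u'.1 p * dot w (val (D.VV T) p) := fun w => by
    simp only [dot, val, hV, Fin.sum_univ_three]; ring
  have m : (D.Mu u T c).1 p = (G.SC.GX (D.Xh u T)).1 p * (D.ph c).1 p - ∑ a,
      dot (val (G.SC.WX (D.Xh u T) a) p) (val (D.VV T) p) * (G.SC.D a (u * D.ph c)).1 p := by
    rw [← Cj.ev_apply, Mu, map_sub, map_sum]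
    simp only [← dot_val]
    rfl
  rw [NZ, dot_val, m] at k
  have k2 : (Complex.sqrt ((G.SC.GX (D.Xh u T)).1 p))⁻¹ ^ 3 * ((G.SC.ELX (D.Xh u T)).1 p *
      dot (val (G.SC.NX (D.Xh u T)) p) (val (D.VV T) p) * (1 - u.1 p * (D.ph c).1 p)) / 2 =
      Complex.sqrt ((G.SC.GX (D.Xh u T)).1 p) * (D.ph c).1 p -
        (Complex.sqrt ((G.SC.GX (D.Xh u T)).1 p))⁻¹ * ∑ a, dot (val (G.SC.WX (D.Xh u T) a) p)
          (val (D.VV T) p) * (G.SC.D a (u * D.ph c)).1 p := by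
    rw [k]
    generalize Complex.sqrt ((G.SC.GX (D.Xh u T)).1 p) = r at s s0 ⊢
    rw [← s]
    field_simp
  simp only [Geo.bulkC, Geo.varC, hv, Fin.sum_univ_three] at k2 ⊢
  change 1 * _ = _ * (u'.1 p * (D.ph c).1 p * _ + u.1 p * (D.ph c).1 p * _ / 2 - _)
  linear_combination Complex.exp (-(dot (D.Xh u T) (D.Xh u T)).1 p / 4) * u'.1 p * k2

theorem tsupp_mul (k : κ) (u : G.SmC) : tsupport (G.oR (D.φ k) * u).1 ⊆ tsupport (D.φ k).1 :=
  closure_mono fun p hp h => hp (by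
    change ((D.φ k).1 p : ℂ) * u.1 p = 0
    rw [h, Complex.ofReal_zero, zero_mul])

theorem varC_off {k : κ} (hp : p ∉ tsupport (D.φ k).1) (Y : Fin 3 → G.SmC) :
    G.varC (G.oR (D.φ k) * u) Y (G.oR (D.φ k) * u') V p = 0 := by
  have h := fun u : G.SmC => image_eq_zero_of_notMem_tsupport fun h => hp (D.tsupp_mul k u h)
  simp only [Geo.varC, h, G.D_zero_off fun h => hp (D.tsupp_mul k u h), zero_mul,
    Finset.sum_const_zero, mul_zero, zero_div, add_zero, sub_self]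

theorem ELX_off (n : D.Nd u T c p) (e : D.EQ u T c p = 0) (hp : ∀ k, p ∉ tsupport (D.φ k).1) :
    (G.SC.ELX (D.Xh u T)).1 p = 0 := by
  have k := D.eq_clear n e
  have h0 : (D.ph c).1 p = 0 := by
    rw [← Cj.ev_apply, ph, map_sum]
    refine Finset.sum_eq_zero fun k _ => ?_
    change c k * ((D.φ k).1 p : ℂ) = 0
    rw [image_eq_zero_of_notMem_tsupport (hp k), Complex.ofReal_zero, mul_zero]
  have h1 : ∀ a, (G.SC.D a (u * D.ph c)).1 p = 0 := fun a => by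
    rw [mul_ph, ← G.DL_apply, map_sum, ← Cj.ev_apply, map_sum]
    refine Finset.sum_eq_zero fun k _ => ?_
    rw [map_smul]
    change c k * (G.SC.D a (G.oR (D.φ k) * u)).1 p = 0
    rw [G.D_zero_off fun h => hp k (D.tsupp_mul k u h), mul_zero]
  have m : (D.Mu u T c).1 p = 0 := by
    rw [← Cj.ev_apply, Mu]
    simp only [map_sub, map_mul, map_sum, Cj.ev_apply, h0, h1, mul_zero, Finset.sum_const_zero,
      sub_self]
  rw [m, h0, mul_zero, mul_zero, sub_zero, mul_one] at k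
  exact (mul_eq_zero.1 k).resolve_right n.NZ

/-- the hypotheses on the weight `ze`, the solution `(u, T, c)` and the variation `(u', V)` -/
structure Bk (ze u : G.SmC) (T : Mt J) (c : κ → ℂ) (u' : G.SmC) (V : Fin 3 → G.SmC) : Prop where
  one : ∀ k, ∀ p ∈ tsupport (D.φ k).1, ze.1 p = 1
  on : ∀ k, ∀ p ∈ tsupport (D.φ k).1, D.Nd u T c p ∧ D.EQ u T c p = 0
  off : ∀ p, ze.1 p ≠ 0 → (∀ k, p ∉ tsupport (D.φ k).1) → (G.SC.ELX (D.Xh u T)).1 p = 0
  var : ∀ k, ∀ p ∈ tsupport (D.φ k).1, ∀ a, (V a).1 p = u'.1 p * (D.VV T a).1 p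

variable {D} {ze : G.SmC}

/-- pointwise -/
theorem Bk.pt (h : D.Bk ze u T c u' V) (p : X) : G.bulkC ze (D.Xh u T) V p =
    ∑ k, c k * G.varC (G.oR (D.φ k) * u) (D.Xh u T) (G.oR (D.φ k) * u') V p := by
  by_cases hp : ∀ k, p ∉ tsupport (D.φ k).1
  · simp only [D.varC_off (hp _), mul_zero, Finset.sum_const_zero]
    by_cases hz : ze.1 p = 0
    · rw [Geo.bulkC, hz, zero_mul]
    · simp only [Geo.bulkC, h.off p hz hp, mul_zero, zero_mul, zero_div]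
  · push Not at hp
    obtain ⟨k, hk⟩ := hp
    have h1 := h.one k p hk
    obtain ⟨n, e⟩ := h.on k p hk
    rw [← Geo.varC_sum, ← mul_ph, ← mul_ph, ← D.bulk_on n e (h.var k p hk), Geo.bulkC, h1]
    rfl

variable [BorelSpace X] [T2Space X] [SecondCountableTopology X]

/-- integrated -/
theorem Bk.int (h : D.Bk ze u T c u' V) (hc : ∀ k, HasCompactSupport (D.φ k).1)
    (hs : ∀ k, ∀ p ∈ tsupport (D.φ k).1, (G.SC.GX (D.Xh u T)).1 p ∈ Complex.slitPlane) :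
    Integrable (G.bulkC ze (D.Xh u T) V) G.M.mu ∧ ∫ p, G.bulkC ze (D.Xh u T) V p ∂G.M.mu =
      ∑ k, c k * ∫ p, G.varC (G.oR (D.φ k) * u) (D.Xh u T) (G.oR (D.φ k) * u') V p ∂G.M.mu := by
  have i := fun k => (G.int_dlag (hc k) (Y' := V) (D.tsupp_mul k u) (g' := G.oR (D.φ k) * u')
    (fun p hp => image_eq_zero_of_notMem_tsupport fun h => hp (D.tsupp_mul k u' h)) (hs k)).1
  rw [funext h.pt]
  refine ⟨integrable_finset_sum _ fun k _ => (i k).const_mul _, ?_⟩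
  rw [integral_finset_sum _ fun k _ => (i k).const_mul _]
  simp only [integral_const_mul]

/-- **BULK**: along a holomorphic family -/
theorem Bk.fam {W : Type} [NormedAddCommGroup W] [NormedSpace ℂ W] {U : Set W} {w : W → G.SmC}
    {T : W → Mt J} {z : W} (h : D.Bk ze (w z) (T z) c u' V) (hz : z ∈ U) (v : W)
    (hF : ∀ k, G.HFam (tsupport (D.φ k).1) U (fun z => G.oR (D.φ k) * w z)
      fun z => D.Xh (w z) (T z))
    (h1 : ∀ k, ∀ p ∈ tsupport (D.φ k).1, fderiv ℂ (fun z => (w z).1 p) z v = u'.1 p ∧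
      DifferentiableAt ℂ (fun z => (w z).1 p) z)
    (h2 : ∀ k, ∀ p ∈ tsupport (D.φ k).1, ∀ c,
      fderiv ℂ (fun z => (D.Xh (w z) (T z) c).1 p) z v = (V c).1 p)
    (h3 : ∀ k, ∀ p ∈ tsupport (D.φ k).1, ∀ a c,
      fderiv ℂ (fun z => (G.SC.D a (D.Xh (w z) (T z) c)).1 p) z v = (G.SC.D a (V c)).1 p) :
    Integrable (G.bulkC ze (D.Xh (w z) (T z)) V) G.M.mu ∧
    ∫ p, G.bulkC ze (D.Xh (w z) (T z)) V p ∂G.M.mu = ∑ k, c k *
      fderiv ℂ (fun z => G.actC (G.oR (D.φ k) * w z) (D.Xh (w z) (T z))) z v := by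
  obtain ⟨i1, i2⟩ := h.int (fun k => (hF k).cpt) fun k => (hF k).slit z hz
  refine ⟨i1, i2.trans (Finset.sum_congr rfl fun k _ => ?_)⟩
  rw [((hF k).fderiv_eq hz v (g' := G.oR (D.φ k) * u') (fun p hp =>
    image_eq_zero_of_notMem_tsupport fun h => hp (D.tsupp_mul k u' h)) (fun p hp => ?_) (h2 k)
    (h3 k)).2]
  change fderiv ℂ (fun z => ((D.φ k).1 p : ℂ) * (w z).1 p) z v = ((D.φ k).1 p : ℂ) * u'.1 p
  rw [fderiv_const_mul (h1 k p hp).2, ← (h1 k p hp).1]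
  rfl

end Nq.Dt

end Crest.Agent.N250

end
end

-- ▼ part N250/Fv/Tqc
section

/-!
# Row 250 (helper75): the torque term and the bulk data of the glued first variation
-/

set_option autoImplicit false
open MeasureTheory Set Filter Topology
open scoped InnerProductSpace ContDiff
open Crest.GeometryTopology.MCF

noncomputable section

namespace Crest.Agent.N250.R0.Vc

open WS Wr B1 Gc
open Crest.Agent.N250.B2 (aa ofR)
open Crest.Agent.N250.Gi (KK)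

theorem exp_le {z : ℂ} (h : ‖z‖ ≤ 1) : ‖Complex.exp z‖ ≤ 3 :=
  (Complex.norm_exp_le_exp_norm z).trans ((Real.exp_le_exp.2 h).trans
    (Real.exp_one_lt_d9.le.trans (by norm_num)))

theorem cos_le {z : ℂ} (h : ‖z‖ ≤ 1) : ‖Complex.cos z‖ ≤ 3 := by
  have h1 := exp_le (z := z * Complex.I) (by simpa using h)
  have h2 := exp_le (z := -z * Complex.I) (by simpa using h)
  rw [Complex.cos, norm_div, Complex.norm_two]
  linarith [norm_add_le (Complex.exp (z * Complex.I)) (Complex.exp (-z * Complex.I))]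

theorem sin_le {z : ℂ} (h : ‖z‖ ≤ 1) : ‖Complex.sin z‖ ≤ 3 := by
  have h1 := exp_le (z := z * Complex.I) (by simpa using h)
  have h2 := exp_le (z := -z * Complex.I) (by simpa using h)
  rw [Complex.sin, norm_div, Complex.norm_two, norm_mul, Complex.norm_I]
  linarith [norm_sub_le (Complex.exp (-z * Complex.I)) (Complex.exp (z * Complex.I))]

variable {S : Mv} {T : St S}

theorem dot_fD (j : Fin T.p) (β β' : T.Bt) (i k : Fin 3) :
    dot (fD j β β' i) (fR (T.e.Q j) (an β j) k) = Ro.sk (an β' j 0 * Complex.cos (an β j 1))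
      (an β' j 1) (an β' j 0 * Complex.sin (an β j 1)) i k := by
  have h := on_fR (T.e.Q j) (an β j)
  have e : dot (fD j β β' i) (fR (T.e.Q j) (an β j) k) = ∑ l, Ro.sk (an β' j 0 *
      Complex.cos (an β j 1)) (an β' j 1) (an β' j 0 * Complex.sin (an β j 1)) i l *
        dot (fR (T.e.Q j) (an β j) l) (fR (T.e.Q j) (an β j) k) := by
    simp only [dot, fD, Fin.sum_univ_three]; ring
  simp only [e, h _ k, mul_ite, mul_one, mul_zero, Finset.sum_ite_eq', Finset.mem_univ, if_true]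

variable {F : Fa T} {σ : Scale T.G} {N : ℕ} {ξ : ℂ × (F.I → ℂ) → F.Ξ σ} {ρ r X1 θ : ℝ}

/-- the torque term -/
theorem tq_le (h : F.Gf N ξ ρ r X1 θ) (hG : T.Good) {X : ℝ} {w : F.I → ℂ}
    (hq : ((X : ℂ), w) ∈ Om r (KK N - 1 / 4) X1 θ) (j : Fin T.p) {β : T.Bt} (hβ : ‖β‖ ≤ 1)
    (β' : T.Bt) : ‖Fv.tqF T.R (zq N ξ j (X, w)) (Gi.Jq T.U N j (F.bq ξ j) (X, w))
      (fR (T.e.Q j) (an β j)) (fD j β β')‖ ≤
      3168 * Real.pi * Real.exp (-X ^ 2 / 4) * X ^ (-(2 * (13 / 8 : ℝ))) * ‖β'‖ := by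
  have E := h.en j
  obtain ⟨c, CD, C, hF⟩ := hG.fm
  have hX : 2 ≤ X := h.X1_ge.trans hq.1.le
  have b0 : ∀ i, ‖an β' j i‖ ≤ ‖β'‖ := fun i => norm_le_pi_norm β' (j, i)
  have b1 : ‖an β j 1‖ ≤ 1 := (norm_le_pi_norm β (j, 1)).trans hβ
  have n0 := norm_nonneg β'
  have s1 : Sol T.R ((X : ℂ), w (Sum.inr j), wd (F.bq ξ j (X, w)) (Gi.hN N X (w (Sum.inr j))))
      (Gi.Jq T.U N j (F.bq ξ j) (X, w)) := E.sol j hq
  have s2 : Adm T.k.K1 X (w (Sum.inr j)) := Gi.adm_mono E.K1le (hq.2.2.2 j)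
  have s3 : HJ.Adm N X (et (w (Sum.inr j)) X) := E.hj j hq
  have s4 : InB T.R T.k.K1 (13 / 8) (7 / 4) X (w (Sum.inr j)) T.k.ε1
      (Gi.Jq T.U N j (F.bq ξ j) (X, w)) := E.inB j hq
  have s5 : RegJ T.R X (w (Sum.inr j)) (Gi.Jq T.U N j (F.bq ξ j) (X, w)) :=
    (hG.reg _ (dom h hq j)).1
  have s6 : ∀ s φ, 0 < (vj T.R X (w (Sum.inr j)) (Gi.Jq T.U N j (F.bq ξ j) (X, w)) s φ 0).re :=
    CjE.vj_re_pos (T := T) (z := zq N ξ j (X, w)) hF.sz (dom h hq j)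
  have k := Far.tq_all E.big.N0 E.ex E.K0.le hX s2 s3 E.ε1le s1 rfl rfl rfl s4 s5 s6
    (norm_mul_le_of_le (b0 0) (cos_le b1)) ((b0 1).trans (by linarith))
    (norm_mul_le_of_le (b0 0) (sin_le b1)) (s := 1) ⟨zero_le_one, le_rfl⟩
  have e : (X ^ (-(13 / 8) : ℝ)) ^ 2 = X ^ (-(2 * (13 / 8 : ℝ))) := by
    rw [← Real.rpow_natCast, ← Real.rpow_mul (by linarith)]; norm_num
  rw [e] at k
  have e2 : Fv.tqF T.R (zq N ξ j (X, w)) (Gi.Jq T.U N j (F.bq ξ j) (X, w))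
      (fR (T.e.Q j) (an β j)) (fD j β β') = Act.tq 1 T.R X (w (Sum.inr j))
      (Gi.Jq T.U N j (F.bq ξ j) (X, w)) (an β' j 0 * Complex.cos (an β j 1)) (an β' j 1)
      (an β' j 0 * Complex.sin (an β j 1)) := by
    rw [Fv.tqF, dot_fD, dot_fD, dot_fD]; rfl
  rw [e2]
  exact k.trans_eq (by ring)

theorem mem_Om (h : F.Gf N ξ ρ r X1 θ) {X : ℝ} (hX : X1 < X) {w : F.I → ℂ}
    (hw : w ∈ DomA r (KK N - 1 / 4) X) : ((X : ℂ), w) ∈ Om r (KK N - 1 / 4) X1 θ :=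
  ⟨hX, by simpa using div_pos h.θ_pos (show 0 < X by linarith [h.X1_ge]), hw⟩

theorem tq_bd (h : F.Gf N ξ ρ r X1 θ) (hG : T.Good) (hρ : ρ ≤ 1) : ∃ CT : ℝ, ∀ X : ℝ, X1 < X →
    ∀ w ∈ DomA r (KK N - 1 / 4) X, ∀ (j : Fin T.p) (β' : T.Bt),
      ‖Fv.tqF T.R (zq N ξ j (X, w)) (Gi.Jq T.U N j (F.bq ξ j) (X, w))
        (fR (T.e.Q j) (an (ξ (X, w)).2.2 j)) (fD j (ξ (X, w)).2.2 β')‖ ≤
      CT * Real.exp (-X ^ 2 / 4) * X ^ (-(2 * (13 / 8 : ℝ))) * ‖β'‖ :=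
  ⟨_, fun _ hX _ hw j β' => tq_le h hG (mem_Om h hX hw) j (((norm_snd_le _).trans (norm_snd_le _)).trans
    ((h.small _ (mem_Om h hX hw)).1.le.trans hρ)) β'⟩

theorem not_tube {k : F.I} {p : S.sl 0} (hp : p ∈ tsupport (F.φ k).1) {a : ℝ} (ha : -2 ≤ a)
    (j : Fin T.p) : ((p : E), (0 : ℝ)) ∉ tube T.e j (T.R + a) := fun h =>
  (F.supp k p hp).2 j (tube_mono (by linarith) h)

theorem ζA_one {k : F.I} {p : S.sl 0} (hp : p ∈ tsupport (F.φ k).1) : T.ζA.1 p = 1 :=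
  T.ze_off (by norm_num) fun j => (tube_or_off' T.sta (T.eR_lt (by norm_num))
    (show T.R + 0 < _ by linarith) p.2 j).resolve_left (not_tube hp (by norm_num) j)


/-- the bulk data -/
theorem bk {X : ℂ} {a : Fin T.p → ℂ} {z : F.Ξ σ} (M : F.Mat N X a z) {u' : T.G.SmC}
    {V : Fin 3 → T.G.SmC} (hV : ∀ k, ∀ p ∈ tsupport (F.φ k).1, ∀ c,
      (V c).1 p = u'.1 p * (F.D.VV (T.TT z.2.2) c).1 p) :
    F.D.Bk (T.G.oR T.ζA) (F.w z) (T.TT z.2.2) (F.c z) u' V where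
  one k p hp := by
    change ((T.ζA.1 p : ℝ) : ℂ) = 1
    rw [ζA_one hp, Complex.ofReal_one]
  on k p hp := (M.eq p (not_tube hp (by norm_num))).symm
  off p h0 hp := by
    have h1 := M.eq p fun j hj => h0 (by
      change ((T.ζA.1 p : ℝ) : ℂ) = 0
      exact Complex.ofReal_eq_zero.2 (zeta_zero (p := ((p : E), (0 : ℝ))) (by linarith) hj))
    exact F.D.ELX_off h1.2 h1.1 hp
  var := hV

end Crest.Agent.N250.R0.Vc

end
end

-- ▼ part N250/Vr/Nc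
section

/-!
# Row 250 (helper82): the first variation of the weighted Gaussian area, non-compact weights
-/

set_option autoImplicit false
open MeasureTheory Set Filter Topology

noncomputable section

namespace Crest.Agent.N250

open Crest.Agent.N222 Gc Cj

namespace Vr

section Poly

variable {R : Type} [CommRing R] {A : Subring R} {n x u v : Fin 3 → R} {J : Fin 3 → Fin 3 → R}
  {K : Fin 3 → Fin 3 → Fin 3 → R}

theorem mem_dot (hu : ∀ c, u c ∈ A) (hv : ∀ c, v c ∈ A) : dot u v ∈ A :=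
  sum_mem fun c _ => mul_mem (hu c) (hv c)

theorem mem_Nv (hn : ∀ a, n a ∈ A) (hJ : ∀ a c, J a c ∈ A) (c : Fin 3) : Nv n J c ∈ A :=
  sum_mem fun a _ => mul_mem (hn a)
    (sub_mem (mul_mem (hJ _ _) (hJ _ _)) (mul_mem (hJ _ _) (hJ _ _)))

theorem mem_adj (hJ : ∀ a c, J a c ∈ A) (a b : Fin 3) : adj J a b ∈ A := by
  refine sub_mem ?_ (mem_dot (hJ a) (hJ b))
  split_ifs
  · exact sum_mem fun e _ => mem_dot (hJ e) (hJ e)
  · exact zero_mem _

theorem mem_Wv (hJ : ∀ a c, J a c ∈ A) (a c : Fin 3) : Wv J a c ∈ A :=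
  sum_mem fun b _ => mul_mem (mem_adj hJ a b) (hJ b c)

theorem mem_G2 (hn : ∀ a, n a ∈ A) (hJ : ∀ a c, J a c ∈ A) : G2 n J ∈ A :=
  mem_dot (mem_Nv hn hJ) (mem_Nv hn hJ)

theorem mem_HP (hn : ∀ a, n a ∈ A) (hJ : ∀ a c, J a c ∈ A) (hK : ∀ a b c, K a b c ∈ A) :
    HP n J K ∈ A :=
  neg_mem (sum_mem fun a _ => sum_mem fun b _ =>
    mul_mem (mem_adj hJ a b) (mem_dot (hK a b) (mem_Nv hn hJ)))

theorem mem_EL (hn : ∀ a, n a ∈ A) (hx : ∀ a, x a ∈ A) (hJ : ∀ a c, J a c ∈ A)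
    (hK : ∀ a b c, K a b c ∈ A) : Gc.EL n x J K ∈ A :=
  sub_mem (mul_mem (ofNat_mem A 2) (mem_HP hn hJ hK))
    (mul_mem (mem_dot hx (mem_Nv hn hJ)) (mem_G2 hn hJ))

end Poly

/-- functions bounded on `S` by a power of `1 + w` -/
def Pw {α : Type} (w : α → ℝ) (S : Set α) : Subring (α → ℂ) where
  carrier := {f | ∃ (C : ℝ) (b : ℕ), 0 ≤ C ∧ ∀ a ∈ S, ‖f a‖ ≤ C * (1 + |w a|) ^ b}
  mul_mem' := by
    rintro f g ⟨C, b, h0, h⟩ ⟨C', b', h0', h'⟩
    refine ⟨C * C', b + b', by positivity, fun a ha => ?_⟩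
    rw [Pi.mul_apply, norm_mul, pow_add, mul_mul_mul_comm]
    exact mul_le_mul (h a ha) (h' a ha) (norm_nonneg _) (by positivity)
  one_mem' := ⟨1, 0, zero_le_one, fun a _ => by simp⟩
  add_mem' := by
    rintro f g ⟨C, b, h0, h⟩ ⟨C', b', h0', h'⟩
    refine ⟨C + C', b + b', by positivity, fun a ha => (norm_add_le _ _).trans ?_⟩
    have e : 1 ≤ 1 + |w a| := le_add_of_nonneg_right (abs_nonneg _)
    rw [add_mul]
    exact add_le_add ((h a ha).trans (mul_le_mul_of_nonneg_left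
      (pow_le_pow_right₀ e (Nat.le_add_right _ _)) h0)) ((h' a ha).trans
      (mul_le_mul_of_nonneg_left (pow_le_pow_right₀ e (Nat.le_add_left _ _)) h0'))
  zero_mem' := ⟨0, 0, le_rfl, fun a _ => by simp⟩
  neg_mem' := by
    rintro f ⟨C, b, h0, h⟩
    exact ⟨C, b, h0, fun a ha => by rw [Pi.neg_apply, norm_neg]; exact h a ha⟩

section Pw

variable {α : Type} {w : α → ℝ} {S : Set α} {f g : α → ℂ}

theorem pw_of {C : ℝ} {b : ℕ} (h : ∀ a ∈ S, ‖f a‖ ≤ C * (1 + |w a|) ^ b) : f ∈ Pw w S :=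
  ⟨|C|, b, abs_nonneg _, fun a ha => (h a ha).trans
    (mul_le_mul_of_nonneg_right (le_abs_self _) (by positivity))⟩


theorem pw_bdd {C : ℝ} (h : ∀ a ∈ S, ‖f a‖ ≤ C) : f ∈ Pw w S :=
  pw_of (C := C) (b := 0) fun a ha => by simpa using h a ha

theorem norm_csqrt (z : ℂ) : ‖Complex.sqrt z‖ = √‖z‖ := by
  rw [← Real.sqrt_sq (norm_nonneg (Complex.sqrt z)), ← norm_pow, Act.sqrt_sq']

theorem pw_sqrt (hf : f ∈ Pw w S) : (fun a => Complex.sqrt (f a)) ∈ Pw w S := by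
  obtain ⟨C, b, h0, h1⟩ := hf
  refine ⟨1 + C, b, by positivity, fun a ha => ?_⟩
  have e : 1 ≤ (1 + |w a|) ^ b := one_le_pow₀ (le_add_of_nonneg_right (abs_nonneg _))
  have := h1 a ha
  rw [norm_csqrt, add_mul, Real.sqrt_le_iff]
  refine ⟨by positivity, ?_⟩
  nlinarith [norm_nonneg (f a), mul_nonneg h0 (zero_le_one.trans e)]

theorem pw_isqrt {c : ℝ} (hc : 0 < c) (h : ∀ a ∈ S, c ≤ ‖f a‖) :
    (fun a => (Complex.sqrt (f a))⁻¹) ∈ Pw w S :=
  pw_bdd (C := (√c)⁻¹) fun a ha => by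
    rw [norm_inv, norm_csqrt]
    exact inv_anti₀ (Real.sqrt_pos.2 hc) (Real.sqrt_le_sqrt (h a ha))

end Pw

end Vr

open Vr

namespace WS.Geo

variable {X : Type} [TopologicalSpace X] [MeasurableSpace X] (G : Geo X)

/-- polynomial growth on `K` -/
def PK (K : Set X) (f : G.SmC) : Prop :=
  ∃ (C : ℝ) (b : ℕ), ∀ p ∈ K, ‖f.1 p‖ ≤ C * (1 + G.S.x2.1 p) ^ b

/-- Gaussian decay of `exp (-⟨Y, Y⟩ / 4)` on `K` -/
def GK (K : Set X) (Y : Fin 3 → G.SmC) : Prop :=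
  ∃ δ C : ℝ, 0 < δ ∧ ∀ p ∈ K, δ * G.S.x2.1 p - C ≤ ((dot Y Y).1 p).re

variable {G} {K : Set X}

theorem pk_iff {f : G.SmC} : G.PK K f ↔ f.1 ∈ Pw G.S.x2.1 K := by
  constructor
  · rintro ⟨C, b, h⟩
    exact pw_of (C := C) (b := b) fun p hp => by rw [abs_of_nonneg (G.x2_nonneg p)]; exact h p hp
  · rintro ⟨C, b, -, h⟩
    exact ⟨C, b, fun p hp => by rw [← abs_of_nonneg (G.x2_nonneg p)]; exact h p hp⟩

theorem PG.pk {f : G.SmC} (h : G.PG f.1) : G.PK K f := by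
  obtain ⟨C, b, -, h⟩ := h
  exact ⟨C, b, fun p _ => h p⟩


variable (G K) in
/-- the ring of smooth functions of polynomial growth on `K` -/
def pkR : Subring G.SmC := (Pw G.S.x2.1 K).comap G.SmC.val.toRingHom

theorem mem_pkR {f : G.SmC} : f ∈ G.pkR K ↔ G.PK K f := pk_iff.symm

theorem norm_nC (p : X) (c : Fin 3) : ‖Cj.nC G p c‖ ≤ 1 := by
  have e := nn (G := G) p
  have := Finset.single_le_sum (f := fun a => (G.n a).1 p * (G.n a).1 p)
    (fun a _ => mul_self_nonneg _) (Finset.mem_univ c)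
  rw [Cj.nC, Complex.norm_real, Real.norm_eq_abs, ← sq_le_one_iff_abs_le_one, pow_two]
  linarith

theorem n_mem (a : Fin 3) : G.SC.n a ∈ G.pkR K := pw_bdd (C := 1) fun p _ => norm_nC p a

theorem norm_eX (Y : Fin 3 → G.SmC) (p : X) : ‖G.eX Y p‖ = Real.exp (-((dot Y Y).1 p).re / 4) := by
  rw [Complex.norm_exp]; congr 1; simp

/-- a Gaussian beats every polynomial -/
theorem gau_le {δ : ℝ} (hδ : 0 < δ) (C₀ C : ℝ) (b : ℕ) (hC : 0 ≤ C) : ∃ B : ℝ, ∀ t s : ℝ, 0 ≤ t →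
    δ * t - C₀ ≤ s → Real.exp (-s / 4) * (C * (1 + t) ^ b) ≤ B * Real.exp (-(δ / 8 * t)) := by
  obtain ⟨C', h0, h⟩ := pow_le_exp b (δ := δ / 8) (by positivity)
  refine ⟨Real.exp (C₀ / 4) * C * C', fun t s ht hs => ?_⟩
  calc _ ≤ Real.exp (C₀ / 4 + -(δ / 8 * t) + -(δ / 8 * t)) * (C * (C' * Real.exp (δ / 8 * t))) :=
        mul_le_mul (Real.exp_le_exp.2 (by linarith))
          (mul_le_mul_of_nonneg_left (h t ht) hC) (by positivity) (by positivity)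
    _ = _ := by
        rw [Real.exp_add, Real.exp_add, Real.exp_neg]
        field_simp

/-- derivative of the Lagrangian at one point -/
theorem hd_lag {V : Type} [NormedAddCommGroup V] [NormedSpace ℂ V] {g : V → G.SmC}
    {Y : V → Fin 3 → G.SmC} {z : V} {p : X}
    (hg : DifferentiableAt ℂ (fun z => (g z).1 p) z)
    (hY : ∀ c, DifferentiableAt ℂ (fun z => (Y z c).1 p) z)
    (hJ : ∀ a c, DifferentiableAt ℂ (fun z => (G.SC.D a (Y z c)).1 p) z)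
    (s : (G.SC.GX (Y z)).1 p ∈ Complex.slitPlane) :
    HD ℂ (fun v => G.lagC (g v) (Y v) p) z fun w =>
    G.dlagC (g z) (Y z) (fderiv ℂ (fun v => (g v).1 p) z w)
      (fun c => fderiv ℂ (fun v => (Y v c).1 p) z w)
      (fun a c => fderiv ℂ (fun v => (G.SC.D a (Y v c)).1 p) z w) p := by
  have d1 := HD.of_diff hg
  have d2 := fun c => HD.of_diff (hY c)
  have d3 := fun a c => HD.of_diff (hJ a c)
  have d4 := (HD.dot (u := fun v => val (Y v) p) (v := fun v => val (Y v) p) d2 d2).comp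
    (ψ := fun w => Complex.exp (-w / 4)) ((hasDerivAt_neg _).div_const 4).cexp
  have fr : Gc.Fr (Cj.nC G p) (JC (Y z) p) := ⟨by
    have := congrArg (fun r : ℝ => (r : ℂ)) (nn (G := G) p)
    simpa [Cj.nC] using this, fun c => n_D _ p⟩
  rw [GX_val] at s
  have d5 := (HD.G2 (J := fun v => JC (Y v) p) (Cj.nC G p) d3).comp (Act.sqrt_hd s)
  simp only [lagC, dlagC, dot_val, GX_val]
  refine (d1.mul (d4.mul d5)).congr fun w => ?_
  have e : ∀ a, val (G.SC.WX (Y z) a) p = Wv (JC (Y z) p) a :=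
    fun a => funext fun c => WX_val _ _ a c
  simp only [fr.dG2_eq, e, dot_comm _ (val (Y z) p)]
  ring

theorem D_chi_ev (a : Fin 3) (p : X) : ∀ᶠ k in atTop, (G.S.D a (G.chi k)).1 p = 0 := by
  have h : Tendsto (fun k : ℕ => 1 / ((k : ℝ) + 1) * G.S.x2.1 p) atTop (𝓝 (0 * _)) :=
    tendsto_one_div_add_atTop_nhds_zero_nat.mul_const _
  filter_upwards [h.eventually (gt_mem_nhds (show 0 * G.S.x2.1 p < 1 by simp))] with k hk
  have e0 : Hu.eta =ᶠ[𝓝 (1 / ((k : ℝ) + 1) * G.S.x2.1 p)] fun _ => 1 := by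
    filter_upwards [Iio_mem_nhds hk] with v hv using Hu.eta_one (le_of_lt hv)
  rw [D_chi, e0.deriv_eq]
  simp

variable [BorelSpace X]

theorem meas_eX (Y : Fin 3 → G.SmC) : Measurable (G.eX Y) := (G.contC (G.eY Y)).measurable

theorem meas_sq (Y : Fin 3 → G.SmC) : Measurable (G.sq Y) := (G.contC _).measurable.pow_const _

theorem meas_lagC (g : G.SmC) (Y : Fin 3 → G.SmC) : Measurable (G.lagC g Y) :=
  (G.contC _).measurable.mul ((meas_eX Y).mul (meas_sq Y))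

/-- Gaussian times polynomial growth is integrable -/
theorem GK.intg {Y : Fin 3 → G.SmC} (h : G.GK K Y) {f F : X → ℂ} (hm : Measurable F)
    (hf : F ∈ Pw G.S.x2.1 K) (h0 : ∀ p, p ∉ K → F p = 0) (e : ∀ p, f p = G.eX Y p * F p) :
    Integrable f G.M.mu := by
  obtain ⟨δ, C₀, hδ, h⟩ := h
  obtain ⟨C, b, hC, hf⟩ := hf
  obtain ⟨B, hB⟩ := gau_le hδ C₀ C b hC
  rw [funext e]
  refine Integrable.mono' ((G.intg_exp (δ := δ / 8) (by positivity)).const_mul |B|)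
    ((meas_eX Y).mul hm).aestronglyMeasurable (Eventually.of_forall fun p => ?_)
  by_cases hp : p ∈ K
  · have := hf p hp
    rw [abs_of_nonneg (G.x2_nonneg p)] at this
    rw [norm_mul, norm_eX]
    exact (mul_le_mul_of_nonneg_left this (by positivity)).trans
      ((hB _ _ (G.x2_nonneg p) (h p hp)).trans
        (mul_le_mul_of_nonneg_right (le_abs_self _) (by positivity)))
  · rw [h0 p hp, mul_zero, norm_zero]; positivity

theorem lim_mul {u : ℕ → G.R} {C l : ℝ} (hb : ∀ k p, |(u k).1 p| ≤ C)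
    (hl : ∀ p, ∀ᶠ k in atTop, (u k).1 p = l) {f : X → ℂ} (hf : Integrable f G.M.mu) :
    (∀ k, Integrable (fun p => ((u k).1 p : ℂ) * f p) G.M.mu) ∧
    Tendsto (fun k => ∫ p, ((u k).1 p : ℂ) * f p ∂G.M.mu) atTop (𝓝 (l * ∫ p, f p ∂G.M.mu)) := by
  have m : ∀ k, AEStronglyMeasurable (fun p => ((u k).1 p : ℂ) * f p) G.M.mu := fun k =>
    (G.contC (G.oR (u k))).aestronglyMeasurable.mul hf.1
  have b : ∀ k, ∀ᵐ p ∂G.M.mu, ‖((u k).1 p : ℂ) * f p‖ ≤ C * ‖f p‖ := fun k =>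
    Eventually.of_forall fun p => by
      rw [norm_mul, Complex.norm_real]
      exact mul_le_mul_of_nonneg_right (hb k p) (norm_nonneg _)
  refine ⟨fun k => (hf.norm.const_mul C).mono' (m k) (b k), ?_⟩
  rw [← integral_const_mul]
  refine tendsto_integral_of_dominated_convergence _ m (hf.norm.const_mul C) b
    (Eventually.of_forall fun p => tendsto_const_nhds.congr' ?_)
  filter_upwards [hl p] with k hk
  rw [hk]

variable (G) in
/-- the field whose divergence is integrated -/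
def fldC (g : G.SmC) (Y V : Fin 3 → G.SmC) (a : Fin 3) (p : X) : ℂ :=
  G.eX Y p * (g.1 p * ((G.sq Y p)⁻¹ * dot (val (G.SC.WX Y a) p) (val V p)))

variable [T2Space X] [SecondCountableTopology X]

/-- integration by parts without compact support -/
theorem int_dlagN (hK : IsClosed K) {g g' : G.SmC} {Y V : Fin 3 → G.SmC}
    (hg : tsupport g.1 ⊆ K) (hg' : ∀ p, p ∉ K → g'.1 p = 0)
    (hs : ∀ p ∈ K, (G.SC.GX Y).1 p ∈ Complex.slitPlane)
    (i1 : Integrable (fun p => G.dlagC g Y (g'.1 p) (val V p) (JC V p) p) G.M.mu)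
    (i2 : Integrable (G.varC g Y g' V) G.M.mu) (i3 : ∀ a, Integrable (G.fldC g Y V a) G.M.mu) :
    ∫ p, G.dlagC g Y (g'.1 p) (val V p) (JC V p) p ∂G.M.mu = ∫ p, G.varC g Y g' V p ∂G.M.mu := by
  obtain ⟨C, -, hC⟩ := G.D_chi_le
  have b1 : ∀ k p, |(G.chi k).1 p| ≤ 1 := fun k p => by
    rw [abs_of_nonneg (G.chi_nonneg k p)]; exact G.chi_le k p
  have b2 : ∀ a k p, |(G.S.D a (G.chi k)).1 p| ≤ |C| := fun a k p => (hC k a p).trans
    ((mul_le_mul (le_abs_self C) (G.ι_le p) (G.ι_pos p).le (abs_nonneg _)).trans (mul_one _).le)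
  have l1 := lim_mul b1 G.chi_ev i1
  have l2 := lim_mul b1 G.chi_ev i2
  have l3 := fun a => lim_mul (u := fun k => G.S.D a (G.chi k)) (b2 a) (D_chi_ev a) (i3 a)
  have l4 := l2.2.sub (tendsto_finsetSum Finset.univ fun a _ => (l3 a).2)
  simp only [Complex.ofReal_one, one_mul, Complex.ofReal_zero, zero_mul, Finset.sum_const_zero,
    sub_zero] at l1 l4
  refine tendsto_nhds_unique l1.2 (l4.congr fun k => ?_)
  have hc : ∀ (f : G.SmC) p, (G.oR (G.chi k) * f).1 p = ((G.chi k).1 p : ℂ) * f.1 p :=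
    fun _ _ => rfl
  have h := (G.int_dlag (K := K ∩ tsupport (G.chi k).1) ((G.chi_cs k).inter_left hK)
    (g := G.oR (G.chi k) * g) (g' := G.oR (G.chi k) * g') (Y := Y) (Y' := V)
    (subset_inter ((tsupport_mul_subset_right (f := (G.oR (G.chi k)).1) (g := g.1)).trans hg)
      (closure_mono fun p hp h0 => hp (by rw [hc, h0]; simp)))
    (fun p hp => by
      rw [hc]
      by_cases h1 : p ∈ K
      · rw [image_eq_zero_of_notMem_tsupport fun h2 => hp ⟨h1, h2⟩]; simp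
      · rw [hg' p h1, mul_zero]) fun p hp => hs p hp.1).2
  rw [← integral_finsetSum _ fun a _ => (l3 a).1 k, ← integral_sub (l2.1 k)
    (integrable_finsetSum _ fun a _ => (l3 a).1 k)]
  refine Eq.trans (integral_congr_ae (Eventually.of_forall fun p => ?_)) (h.symm.trans
    (integral_congr_ae (Eventually.of_forall fun p => ?_)))
  · have e : ∀ a, (G.SC.D a (G.oR (G.chi k) * g)).1 p = ((G.chi k).1 p : ℂ) * (G.SC.D a g).1 p
        + ((G.S.D a (G.chi k)).1 p : ℂ) * g.1 p := fun a => by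
      rw [G.hypC.mul, G.D_oR]; rfl
    simp only [varC, fldC, hc, e, Fin.sum_univ_three]
    ring
  · simp only [dlagC, hc]
    ring

/-- a complex surface that is tame on `K` -/
structure TmK (G : Geo X) (K : Set X) (Y : Fin 3 → G.SmC) : Prop where
  gau : G.GK K Y
  low : ∃ c : ℝ, 0 < c ∧ ∀ p ∈ K, c ≤ ‖(G.SC.GX Y).1 p‖
  p0 : ∀ c, G.PK K (Y c)
  p1 : ∀ a c, G.PK K (G.SC.D a (Y c))
  p2 : ∀ a b c, G.PK K (G.SC.D a (G.SC.D b (Y c)))

namespace TmK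

variable {Y V : Fin 3 → G.SmC} {g : G.SmC} (h : G.TmK K Y)
include h

omit [BorelSpace X] [T2Space X] [SecondCountableTopology X]

theorem J_mem (a c : Fin 3) : G.SC.Jm Y a c ∈ G.pkR K := mem_pkR.2 (h.p1 a c)

theorem isq : (fun p => (G.sq Y p)⁻¹) ∈ Pw G.S.x2.1 K := by
  obtain ⟨c, h0, h1⟩ := h.low
  exact pw_isqrt h0 h1

variable [BorelSpace X]

theorem intg_lagC (h0 : ∀ p, p ∉ K → g.1 p = 0) (hg : G.PK K g) :
    Integrable (G.lagC g Y) G.M.mu :=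
  h.gau.intg (F := fun p => g.1 p * G.sq Y p) ((G.contC g).measurable.mul (meas_sq Y))
    (mul_mem (pk_iff.1 hg) (pw_sqrt (mem_G2 (A := G.pkR K) n_mem h.J_mem)))
    (fun p hp => by rw [h0 p hp, zero_mul]) fun p => by rw [lagC]; ring

theorem intg_bulkC (h0 : ∀ p, p ∉ K → g.1 p = 0) (hg : G.PK K g) (hV : ∀ c, G.PK K (V c)) :
    Integrable (G.bulkC g Y V) G.M.mu := by
  have m : g * G.SC.ELX Y * dot (G.SC.NX Y) V * algebraMap ℂ _ 2⁻¹ ∈ G.pkR K :=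
    mul_mem (mul_mem (mul_mem (mem_pkR.2 hg) (mem_EL n_mem (fun c => mem_pkR.2 (h.p0 c)) h.J_mem
      fun a b c => mem_pkR.2 (h.p2 a b c))) (mem_dot (mem_Nv n_mem h.J_mem)
        fun c => mem_pkR.2 (hV c))) (pw_bdd (C := ‖(2⁻¹ : ℂ)‖) fun _ _ => le_rfl)
  refine h.gau.intg (F := (fun p => (G.sq Y p)⁻¹) ^ 3 *
    (g * G.SC.ELX Y * dot (G.SC.NX Y) V * algebraMap ℂ G.SmC 2⁻¹).1)
    (((meas_sq Y).inv.pow_const 3).mul (G.contC _).measurable) (mul_mem (pow_mem h.isq 3) m)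
    (fun p hp => ?_) fun p => ?_
  · change _ * (g.1 p * _ * _ * _) = 0
    simp only [h0 p hp, zero_mul, mul_zero]
  · change _ = _ * ((G.sq Y p)⁻¹ ^ 3 * (g.1 p * (G.SC.ELX Y).1 p * (dot (G.SC.NX Y) V).1 p * 2⁻¹))
    rw [bulkC, dot_val (G.SC.NX Y)]; ring

theorem intg_fluxC (h0 : tsupport g.1 ⊆ K) (hg : ∀ a, G.PK K (G.SC.D a g))
    (hV : ∀ c, G.PK K (V c)) : Integrable (G.fluxC g Y V) G.M.mu := by
  have m : ∑ a, G.SC.D a g * dot (G.SC.WX Y a) V ∈ G.pkR K := sum_mem fun a _ =>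
    mul_mem (mem_pkR.2 (hg a)) (mem_dot (mem_Wv h.J_mem a) fun c => mem_pkR.2 (hV c))
  have e : ∀ p, (∑ a, G.SC.D a g * dot (G.SC.WX Y a) V).1 p =
      ∑ a, (G.SC.D a g).1 p * dot (val (G.SC.WX Y a) p) (val V p) := fun p => by
    rw [← Cj.ev_apply]
    simp only [map_mul, map_sum, map_dot, Cj.ev_apply]
    rfl
  refine h.gau.intg (F := (fun p => (G.sq Y p)⁻¹) * (∑ a, G.SC.D a g * dot (G.SC.WX Y a) V).1)
    ((meas_sq Y).inv.mul (G.contC _).measurable) (mul_mem h.isq m) (fun p hp => ?_) fun p => ?_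
  · simp only [Pi.mul_apply, e, G.D_zero_off fun k => hp (h0 k), zero_mul, Finset.sum_const_zero,
      mul_zero]
  · rw [fluxC, Pi.mul_apply, e]

theorem intg_fldC (h0 : ∀ p, p ∉ K → g.1 p = 0) (hg : G.PK K g) (hV : ∀ c, G.PK K (V c))
    (a : Fin 3) : Integrable (G.fldC g Y V a) G.M.mu := by
  have m : g * dot (G.SC.WX Y a) V ∈ G.pkR K :=
    mul_mem (mem_pkR.2 hg) (mem_dot (mem_Wv h.J_mem a) fun c => mem_pkR.2 (hV c))
  refine h.gau.intg (F := (fun p => (G.sq Y p)⁻¹) * (g * dot (G.SC.WX Y a) V).1)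
    ((meas_sq Y).inv.mul (G.contC _).measurable) (mul_mem h.isq m) (fun p hp => ?_) fun p => ?_
  · change _ * (g.1 p * _) = 0
    simp only [h0 p hp, zero_mul, mul_zero]
  · change _ = _ * ((G.sq Y p)⁻¹ * (g.1 p * (dot (G.SC.WX Y a) V).1 p))
    rw [fldC, dot_val (G.SC.WX Y a)]; ring

end TmK

variable {W : Type} [NormedAddCommGroup W] [NormedSpace ℂ W]

/-- a holomorphic family of weights `g` (supported in the closed set `K`) and complex surfaces -/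
structure NFam (G : Geo X) (K : Set X) (U : Set W) (g : W → G.SmC) (Y : W → Fin 3 → G.SmC) :
    Prop where
  cl : IsClosed K
  op : IsOpen U
  supp : ∀ z ∈ U, tsupport (g z).1 ⊆ K
  hg : ∀ p ∈ K, DifferentiableOn ℂ (fun z => (g z).1 p) U
  hY : ∀ p ∈ K, ∀ c, DifferentiableOn ℂ (fun z => (Y z c).1 p) U
  hJ : ∀ p ∈ K, ∀ a c, DifferentiableOn ℂ (fun z => (G.SC.D a (Y z c)).1 p) U
  bd : ∃ (C : ℝ) (b : ℕ), ∀ z ∈ U, ∀ p ∈ K, ‖(g z).1 p‖ ≤ C * (1 + G.S.x2.1 p) ^ b ∧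
    ∀ a c, ‖(G.SC.D a (Y z c)).1 p‖ ≤ C * (1 + G.S.x2.1 p) ^ b
  gau : ∃ δ C : ℝ, 0 < δ ∧ ∀ z ∈ U, ∀ p ∈ K, δ * G.S.x2.1 p - C ≤ ((dot (Y z) (Y z)).1 p).re
  slit : ∀ z ∈ U, ∀ p ∈ K, (G.SC.GX (Y z)).1 p ∈ Complex.slitPlane

namespace NFam

variable {U : Set W} {g : W → G.SmC} {Y : W → Fin 3 → G.SmC} (h : G.NFam K U g Y) {z : W} {p : X}
include h

omit [BorelSpace X] [T2Space X] [SecondCountableTopology X]

theorem zero (hz : z ∈ U) (hp : p ∉ K) : (g z).1 p = 0 :=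
  image_eq_zero_of_notMem_tsupport fun k => hp (h.supp z hz k)

theorem hd (hz : z ∈ U) (hp : p ∈ K) : HD ℂ (fun v => G.lagC (g v) (Y v) p) z fun w =>
    G.dlagC (g z) (Y z) (fderiv ℂ (fun v => (g v).1 p) z w)
      (fun c => fderiv ℂ (fun v => (Y v c).1 p) z w)
      (fun a c => fderiv ℂ (fun v => (G.SC.D a (Y v c)).1 p) z w) p :=
  have n := h.op.mem_nhds hz
  hd_lag ((h.hg p hp).differentiableAt n) (fun c => (h.hY p hp c).differentiableAt n)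
    (fun a c => (h.hJ p hp a c).differentiableAt n) (h.slit z hz p hp)

theorem pk_g (hz : z ∈ U) : G.PK K (g z) := by
  obtain ⟨C, b, hC⟩ := h.bd
  exact ⟨C, b, fun p hp => (hC z hz p hp).1⟩



/-- uniform Gaussian bound -/
theorem bound : ∃ δ B : ℝ, 0 < δ ∧ ∀ z ∈ U, ∀ p,
    ‖G.lagC (g z) (Y z) p‖ ≤ B * Real.exp (-(δ * G.S.x2.1 p)) := by
  obtain ⟨C, b, hC⟩ := h.bd
  obtain ⟨δ, C₀, hδ, hg⟩ := h.gau
  let A := Pw (fun q : W × X => G.S.x2.1 q.2) (U ×ˢ K)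
  have m1 : (fun q : W × X => (g q.1).1 q.2) ∈ A := pw_of (C := C) (b := b) fun q hq => by
    rw [abs_of_nonneg (G.x2_nonneg _)]; exact (hC _ hq.1 _ hq.2).1
  have m2 : G2 (fun a (q : W × X) => Cj.nC G q.2 a) (fun a c q => JC (Y q.1) q.2 a c) ∈ A :=
    mem_G2 (fun a => pw_bdd (C := 1) fun q _ => norm_nC _ a) fun a c =>
      pw_of (C := C) (b := b) fun q hq => by
        rw [abs_of_nonneg (G.x2_nonneg _)]; exact (hC _ hq.1 _ hq.2).2 a c
  obtain ⟨C', b', h0, h1⟩ := mul_mem m1 (pw_sqrt m2)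
  obtain ⟨B, hB⟩ := gau_le hδ C₀ C' b' h0
  refine ⟨δ / 8, |B|, by positivity, fun z hz p => ?_⟩
  by_cases hp : p ∈ K
  · have e := h1 (z, p) ⟨hz, hp⟩
    have e2 := map_G2 (Pi.evalRingHom (fun _ : W × X => ℂ) (z, p))
      (fun a (q : W × X) => Cj.nC G q.2 a) (fun a c q => JC (Y q.1) q.2 a c)
    simp only [Pi.evalRingHom_apply] at e2
    simp only [Pi.mul_apply, e2, abs_of_nonneg (G.x2_nonneg p)] at e
    have e3 : G.lagC (g z) (Y z) p =
        G.eX (Y z) p * ((g z).1 p * Complex.sqrt (G2 (Cj.nC G p) (JC (Y z) p))) := by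
      rw [lagC, GX_val]; ring
    rw [e3, norm_mul, norm_eX]
    exact (mul_le_mul_of_nonneg_left e (by positivity)).trans
      ((hB _ _ (G.x2_nonneg p) (hg z hz p hp)).trans
        (mul_le_mul_of_nonneg_right (le_abs_self _) (by positivity)))
  · rw [lagC, h.zero hz hp, zero_mul, norm_zero]; positivity

variable [BorelSpace X]

theorem dom : ∃ b : X → ℝ, Integrable b G.M.mu ∧
    (∀ z ∈ U, AEStronglyMeasurable (G.lagC (g z) (Y z)) G.M.mu) ∧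
    (∀ᵐ p ∂G.M.mu, DifferentiableOn ℂ (fun z => G.lagC (g z) (Y z) p) U) ∧
    ∀ᵐ p ∂G.M.mu, ∀ z ∈ U, ‖G.lagC (g z) (Y z) p‖ ≤ b p := by
  obtain ⟨δ, B, hδ, hB⟩ := h.bound
  refine ⟨_, (G.intg_exp hδ).const_mul B, fun z _ => (meas_lagC _ _).aestronglyMeasurable,
    Eventually.of_forall fun p => ?_, Eventually.of_forall fun p z hz => hB z hz p⟩
  by_cases hp : p ∈ K
  · exact fun z hz => (h.hd hz hp).diff.differentiableWithinAt
  · exact (differentiableOn_const (0 : ℂ)).congr fun z hz => by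
      rw [lagC, h.zero hz hp, zero_mul]


/-- the weighted Gaussian area is holomorphic -/
theorem diffOn : DifferentiableOn ℂ (fun z => G.actC (g z) (Y z)) U := by
  obtain ⟨b, h1, h2, h3, h4⟩ := h.dom
  exact H.int_diffOn h.op h1 h2 h3 h4


/-- derivative before integration by parts -/
theorem fderiv_dlag (hz : z ∈ U) (v : W) {g' : G.SmC} {V : Fin 3 → G.SmC}
    (h0 : ∀ p, p ∉ K → g'.1 p = 0)
    (h1 : ∀ p ∈ K, fderiv ℂ (fun z => (g z).1 p) z v = g'.1 p)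
    (h2 : ∀ p ∈ K, ∀ c, fderiv ℂ (fun z => (Y z c).1 p) z v = (V c).1 p)
    (h3 : ∀ p ∈ K, ∀ a c,
      fderiv ℂ (fun z => (G.SC.D a (Y z c)).1 p) z v = (G.SC.D a (V c)).1 p) :
    Integrable (fun p => G.dlagC (g z) (Y z) (g'.1 p) (val V p) (JC V p) p) G.M.mu ∧
    fderiv ℂ (fun z => G.actC (g z) (Y z)) z v =
      ∫ p, G.dlagC (g z) (Y z) (g'.1 p) (val V p) (JC V p) p ∂G.M.mu := by
  obtain ⟨b, k1, k2, k3, k4⟩ := h.dom
  have e : (fun p => fderiv ℂ (fun z => G.lagC (g z) (Y z) p) z v) =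
      fun p => G.dlagC (g z) (Y z) (g'.1 p) (val V p) (JC V p) p := funext fun p => by
    by_cases hp : p ∈ K
    · simp only [(h.hd hz hp).eq, h1 p hp, h2 p hp, h3 p hp]
      rfl
    · have e : (fun v => G.lagC (g v) (Y v) p) =ᶠ[𝓝 z] fun _ => 0 :=
        (h.op.eventually_mem hz).mono fun v hv => by simp only [lagC, h.zero hv hp, zero_mul]
      simp only [e.fderiv_eq, dlagC, h.zero hz hp, h0 p hp]
      simp
  have := H.int_fderiv h.op k1 k2 k3 k4 hz v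
  rwa [e] at this

variable [T2Space X] [SecondCountableTopology X]

/-- **FIRST VARIATION**, non-compact weights -/
theorem fderiv_eq (hz : z ∈ U) (v : W) (hT : G.TmK K (Y z)) (hD : ∀ a, G.PK K (G.SC.D a (g z)))
    {g' : G.SmC} {V : Fin 3 → G.SmC} (h0 : ∀ p, p ∉ K → g'.1 p = 0) (hg' : G.PK K g')
    (hV : ∀ c, G.PK K (V c))
    (h1 : ∀ p ∈ K, fderiv ℂ (fun z => (g z).1 p) z v = g'.1 p)
    (h2 : ∀ p ∈ K, ∀ c, fderiv ℂ (fun z => (Y z c).1 p) z v = (V c).1 p)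
    (h3 : ∀ p ∈ K, ∀ a c,
      fderiv ℂ (fun z => (G.SC.D a (Y z c)).1 p) z v = (G.SC.D a (V c)).1 p) :
    fderiv ℂ (fun z => G.actC (g z) (Y z)) z v = G.actC g' (Y z)
      + ∫ p, G.bulkC (g z) (Y z) V p ∂G.M.mu - ∫ p, G.fluxC (g z) (Y z) V p ∂G.M.mu := by
  obtain ⟨i1, e⟩ := h.fderiv_dlag hz v h0 h1 h2 h3
  have j1 := hT.intg_lagC h0 hg'
  have j2 := hT.intg_bulkC (fun p hp => h.zero hz hp) (h.pk_g hz) hV
  have j3 := hT.intg_fluxC (h.supp z hz) hD hV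
  rw [e, int_dlagN h.cl (h.supp z hz) h0 (h.slit z hz) i1 (by
      rw [funext (G.varC_eq (g z) g' (Y z) V)]; exact (j1.add j2).sub j3)
    (hT.intg_fldC (fun p hp => h.zero hz hp) (h.pk_g hz) hV)]
  simp only [varC_eq]
  rw [integral_sub (f := fun p => G.lagC g' (Y z) p + G.bulkC (g z) (Y z) V p) (j1.add j2) j3,
    integral_add j1 j2, actC]

end NFam


end WS.Geo

end Crest.Agent.N250

end
end

-- ▼ part N250/Vr/Inst
section

/-!
# Row 250 (helper82): first variation of the core action and of the pairings on `R0/Core`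
-/

set_option autoImplicit false
open MeasureTheory Set Filter Topology Metric

noncomputable section

namespace Crest.Agent.N250

open Crest.Agent.N222 Gc Cj Vr WS

namespace WS.Geo

variable {X : Type} [TopologicalSpace X] [MeasurableSpace X] {G : Geo X} {K : Set X}

theorem ρ_le_w (p : X) : G.ρ.1 p ≤ 1 + G.S.x2.1 p := (G.ρ_le_rt p).trans (G.rt_le p)

theorem pk_bdd {f : G.SmC} {C : ℝ} (h : ∀ p ∈ K, ‖f.1 p‖ ≤ C) : G.PK K f :=
  ⟨C, 0, fun p hp => by simpa using h p hp⟩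

theorem pk_ρ {f : G.SmC} {C : ℝ} (h : ∀ p ∈ K, ‖f.1 p‖ ≤ C * G.ρ.1 p) : G.PK K f :=
  ⟨|C|, 1, fun p hp => (h p hp).trans (by
    rw [pow_one]
    exact mul_le_mul (le_abs_self _) (ρ_le_w p) (G.ρ_pos p).le (abs_nonneg _))⟩

theorem PK.add {f g : G.SmC} (hf : G.PK K f) (hg : G.PK K g) : G.PK K (f + g) :=
  mem_pkR.1 (add_mem (mem_pkR.2 hf) (mem_pkR.2 hg))

theorem PK.mul {f g : G.SmC} (hf : G.PK K f) (hg : G.PK K g) : G.PK K (f * g) :=
  mem_pkR.1 (mul_mem (mem_pkR.2 hf) (mem_pkR.2 hg))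

theorem Sy.pk {k : ℤ} {f : G.R} (h : G.Sy k f) : G.PK K (G.oR f) := h.pg.oR.pk

theorem Sy.pk_D {k : ℤ} {f : G.R} (h : G.Sy k f) (a : Fin 3) : G.PK K (G.SC.D a (G.oR f)) := by
  rw [G.D_oR]; exact (h.D a).pk

theorem pk_DDx (a b c : Fin 3) : G.PK K (G.SC.D a (G.SC.D b (G.SC.x c))) := by
  have e : G.S.D b (G.S.x c) = G.S.P b c := rfl
  rw [G.SC_x, G.D_oR, e]
  exact (G.sy_P b c).pk_D a

/-- tameness from closeness to `x` -/
theorem tmk_of {Y : Fin 3 → G.SmC} (h : ∀ p ∈ K, G.Cl Y p) {C : ℝ}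
    (h2 : ∀ p ∈ K, ∀ a b c, ‖(G.SC.D a (G.SC.D b (Y c - G.SC.x c))).1 p‖ ≤ C) : G.TmK K Y where
  gau := ⟨4 / 5, 1, by norm_num, fun p hp => (h p hp).re_ge⟩
  low := ⟨1 / 2, by norm_num, fun p hp => (h p hp).GX_ge⟩
  p0 c := ⟨2, 1, fun p hp => ((h p hp).Y_le c).trans (by
    rw [pow_one]; exact mul_le_mul_of_nonneg_left (G.rt_le p) zero_le_two)⟩
  p1 a c := pk_bdd fun p hp => (h p hp).J_le a c
  p2 a b c := by
    have e : Y c = (Y c - G.SC.x c) + G.SC.x c := (sub_add_cancel _ _).symm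
    rw [e, G.hypC.add, G.hypC.add]
    exact (pk_bdd fun p hp => h2 p hp a b c).add (pk_DDx a b c)

variable {V : Type} [NormedAddCommGroup V] [NormedSpace ℂ V] {U : Set V} {C : ℝ}
  {g : V → G.SmC} {Y : V → Fin 3 → G.SmC}

theorem CFam.nfam (h : G.CFam K U C g Y) (hK : IsClosed K) : G.NFam K U g Y where
  cl := hK
  op := h.op
  supp z hz := closure_minimal (fun p hp => by_contra fun k => hp (h.off z hz p k)) hK
  hg := h.hg
  hY := h.hY
  hJ := h.hJ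
  bd := ⟨|C| + 3, 1, fun z hz p hp => by
    have e := one_le_w (G := G) p
    have e1 := G.rt_le p
    have e2 := G.one_le_rt p
    have e3 := abs_nonneg C
    rw [pow_one]
    refine ⟨(h.bd z hz p hp).trans ?_, fun a c => ((h.cl z hz p hp).J_le a c).trans ?_⟩
    · nlinarith [le_abs_self C]
    · nlinarith⟩
  gau := ⟨4 / 5, 1, by norm_num, fun z hz p hp => (h.cl z hz p hp).re_ge⟩
  slit z hz p hp := (h.cl z hz p hp).slit

theorem CFam.hfam (h : G.CFam K U C g Y) {K' : Set X} (hK : IsCompact K') (hs : K' ⊆ K)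
    (hg : ∀ z ∈ U, tsupport (g z).1 ⊆ K') : G.HFam K' U g Y where
  cpt := hK
  op := h.op
  supp := hg
  hg p hp := h.hg p (hs hp)
  hY p hp := h.hY p (hs hp)
  hJ p hp := h.hJ p (hs hp)
  bd := by
    obtain ⟨B, hB⟩ := hK.exists_bound_of_continuousOn (G.cont G.S.x2).continuousOn
    refine ⟨(|C| + 3) * (1 + B), fun z hz p hp => ?_⟩
    have e := (le_abs_self _).trans (hB p hp)
    have e0 := G.x2_nonneg p
    have e1 := G.rt_le p
    have e2 := G.one_le_rt p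
    have e3 := abs_nonneg C
    refine ⟨(h.bd z hz p (hs hp)).trans ?_, fun c => ((h.cl z hz p (hs hp)).Y_le c).trans ?_,
      fun a c => ((h.cl z hz p (hs hp)).J_le a c).trans ?_⟩
    · nlinarith [le_abs_self C]
    · nlinarith
    · nlinarith
  slit z hz p hp := (h.cl z hz p (hs hp)).slit

end WS.Geo

namespace Nq.Dt

variable {X : Type} [TopologicalSpace X] [MeasurableSpace X] {G : Geo X} {J κ : Type}
  [Fintype J] (D : Dt G J κ)

/-- the variation of `Xh u T` in the direction `(u', T')` -/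
def dX (u : G.SmC) (T : Mt J) (u' : G.SmC) (T' : Mt J) (c : Fin 3) : G.SmC :=
  D.mv T' G.S.x c + (u' * D.VV T c + u * D.mv T' D.Z c)

section Hd

variable {V : Type} [NormedAddCommGroup V] [NormedSpace ℂ V] {u : V → G.SmC} {T : V → Mt J}
  {z : V} {p : X} {w : V → G.SmC} {M : V → Mt J}

theorem hd_sum (hT : DifferentiableAt ℂ T z) (f : J → Fin 3 → ℂ) (c : Fin 3) :
    HD ℂ (fun z => ∑ j, ∑ d, T z j c d * f j d) z
      fun v => ∑ j, ∑ d, fderiv ℂ T z v j c d * f j d := by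
  let L : Mt J →L[ℂ] ℂ := ∑ j, ∑ d, f j d • (ContinuousLinearMap.proj d).comp
    ((ContinuousLinearMap.proj c).comp
      (ContinuousLinearMap.proj j : Mt J →L[ℂ] Fin 3 → Fin 3 → ℂ))
  have e : ∀ A : Mt J, L A = ∑ j, ∑ d, A j c d * f j d := fun A => by
    simp [L, mul_comm]
  simp only [← e]
  exact HD.of (L.hasFDerivAt.comp z hT.hasFDerivAt)

variable [Fintype κ]

theorem hd_Xh (hT : DifferentiableAt ℂ T z) (hu : HD ℂ (fun z => (u z).1 p) z fun v => (w v).1 p)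
    (c : Fin 3) : HD ℂ (fun z => (D.Xh (u z) (T z) c).1 p) z
      fun v => (D.dX (u z) (T z) (w v) (fderiv ℂ T z v) c).1 p := by
  simp only [Xh_val, mv_val]
  refine ((HD.const _).add ((hd_sum hT _ c).add
    (hu.mul ((HD.const _).add (hd_sum hT _ c))))).congr fun v => ?_
  change _ = (D.mv _ _ c).1 p + ((w v).1 p * (((D.Z c).1 p : ℂ) + (D.mv _ _ c).1 p) +
    (u z).1 p * (D.mv _ _ c).1 p)
  simp only [mv_val]
  ring

theorem hd_D_Xh (hT : DifferentiableAt ℂ T z)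
    (hu : HD ℂ (fun z => (u z).1 p) z fun v => (w v).1 p) (a : Fin 3)
    (hD : HD ℂ (fun z => (G.SC.D a (u z)).1 p) z fun v => (G.SC.D a (w v)).1 p) (c : Fin 3) :
    HD ℂ (fun z => (G.SC.D a (D.Xh (u z) (T z) c)).1 p) z
      fun v => (G.SC.D a (D.dX (u z) (T z) (w v) (fderiv ℂ T z v) c)).1 p := by
  simp only [D_Xh_val, mv_val, D_mv_val]
  refine ((HD.const _).add ((hd_sum hT _ c).add ((hu.mul ((HD.const _).add (hd_sum hT _ c))).add
    (hD.mul ((HD.const _).add (hd_sum hT _ c)))))).congr fun v => ?_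
  simp only [dX, VV, G.hypC.add, G.hypC.mul, G.D_oR]
  change _ = (G.SC.D a (D.mv _ _ c)).1 p + (((w v).1 p * (((G.S.D a (D.Z c)).1 p : ℂ) +
    (G.SC.D a (D.mv _ _ c)).1 p) + (G.SC.D a (w v)).1 p * (((D.Z c).1 p : ℂ) + (D.mv _ _ c).1 p))
    + ((u z).1 p * (G.SC.D a (D.mv _ _ c)).1 p + (G.SC.D a (u z)).1 p * (D.mv _ _ c).1 p))
  simp only [mv_val, D_mv_val]
  ring

end Hd

variable {D}

theorem Good.pk_mv (h : D.Good) (T : Mt J) (w : Fin 3 → G.R) (c : Fin 3) :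
    G.PK {p | G.ζ.1 p = 1} (D.mv T w c) := by
  obtain ⟨C, -, hC⟩ := Rm.bd_mv h w
  exact Geo.pk_bdd fun p hp => (hC T p c hp).h0

theorem Good.pk_dX (h : D.Good) {u u' : G.SmC} (hu : G.PK {p | G.ζ.1 p = 1} u)
    (hu' : G.PK {p | G.ζ.1 p = 1} u') (T T' : Mt J) (c : Fin 3) :
    G.PK {p | G.ζ.1 p = 1} (D.dX u T u' T' c) :=
  (h.pk_mv _ _ c).add ((hu'.mul ((h.symZ c).pk.add (h.pk_mv _ _ c))).add (hu.mul (h.pk_mv _ _ c)))

end Nq.Dt

namespace R0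

open Wr

variable {S : Mv} {T : St S}



theorem St.diff_TT (T : St S) : Differentiable ℂ T.TT := by
  refine differentiable_pi.2 fun j => ?_
  have h : Differentiable ℂ fun (β : T.Bt) (i : Fin 2) => β (j, i) :=
    differentiable_pi.2 fun i => differentiable_apply (j, i)
  have e : (fun β : T.Bt => T.TT β j) = Ro.TT (fQ (T.e.Q j)) ∘ fun β i => β (j, i) :=
    funext fun β => Tm_eq _ _
  rw [e]
  exact (Ro.diff_TT _).comp h

theorem St.TT_zero (T : St S) : T.TT 0 = 0 := funext fun j => Ro.TT_zero (fQ (T.e.Q j))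

/-- the set where all jets are controlled -/
abbrev St.Kz (T : St S) : Set (S.sl 0) := {p | T.G.ζ.1 p = 1}

theorem St.closed_Kz (T : St S) : IsClosed T.Kz :=
  isClosed_eq (Geo.cont T.G.ζ) continuous_const

theorem St.ζA_Kz (T : St S) {p : S.sl 0} (hp : T.ζA.1 p ≠ 0) : p ∈ T.Kz :=
  T.ζ_one_of_ne (by norm_num) (by norm_num) (by norm_num) hp

namespace Fa

variable (F : Fa T) {σ : Scale T.G}

theorem φ_Kz (k : F.I) : tsupport (F.φ k).1 ⊆ T.Kz := fun p hp => by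
  rcases T.off_or_ψ (a := T.R + 1) (b := T.R - 2) (T.eR_lt' (by linarith)) (by linarith) p with
    h | ⟨j, q, h1, rfl⟩
  · change T.G.ζ.1 p = 1
    rw [T.ζ_eq]; exact T.ze_off (by norm_num) h
  · exact absurd hp (F.ψ_notMem k h1)

/-- the projection to the variables of the Green operator -/
def pr (σ : Scale T.G) : F.Ξ σ →L[ℂ] σ.AA × (F.I → ℂ) :=
  (ContinuousLinearMap.fst ℂ _ _).prod
    ((ContinuousLinearMap.fst ℂ _ _).comp (ContinuousLinearMap.snd ℂ _ _))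

theorem w_pr (ξ : F.Ξ σ) : F.w ξ = σ.wG F.φ (F.pr σ ξ) := rfl

theorem diff_TT : Differentiable ℂ fun z : F.Ξ σ => T.TT z.2.2 :=
  T.diff_TT.comp (differentiable_snd.comp differentiable_snd)

/-- the variation of the rotations -/
def dT (ξ v : F.Ξ σ) : Nq.Mt (Fin T.p) := fderiv ℂ (fun z : F.Ξ σ => T.TT z.2.2) ξ v

/-- the variation of the surface -/
def dY (ξ v : F.Ξ σ) : Fin 3 → T.G.SmC := F.D.dX (F.w ξ) (T.TT ξ.2.2) (F.w v) (F.dT ξ v)

/-- off the rotation zone the variation is `w v • V` -/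
theorem dY_off (ξ v : F.Ξ σ) {p : S.sl 0} (hp : ∀ i, (T.χr i).1 p = 0) (c : Fin 3) :
    (F.dY ξ v c).1 p = (F.w v).1 p * (F.D.VV (T.TT ξ.2.2) c).1 p := by
  change (F.D.mv _ _ c).1 p + ((F.w v).1 p * _ + (F.w ξ).1 p * (F.D.mv _ T.Z c).1 p) = _
  rw [F.mv_zero _ _ c hp, F.mv_zero _ _ c hp, zero_add, mul_zero, add_zero]

theorem dY_core (ξ v : F.Ξ σ) {k : F.I} {p : S.sl 0} (hp : p ∈ tsupport (F.φ k).1) (c : Fin 3) :
    (F.dY ξ v c).1 p = (F.w v).1 p * (F.D.VV (T.TT ξ.2.2) c).1 p :=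
  F.dY_off ξ v (F.χr_zero hp) c

section Jets

variable (Jt : σ.Jets F.φ) {p : S.sl 0} (hp : p ∈ T.Kz) (ξ : F.Ξ σ)
include Jt hp

theorem hd_w : HD ℂ (fun z : F.Ξ σ => (F.w z).1 p) ξ fun v => (F.w v).1 p :=
  ⟨(Nq.Dt.hasF_w Jt (F.pr σ) hp ξ).differentiableAt, fun v => (Nq.Dt.fd_w Jt (F.pr σ) hp ξ v)⟩

theorem hd_Dw (a : Fin 3) : HD ℂ (fun z : F.Ξ σ => (T.G.SC.D a (F.w z)).1 p) ξ
    fun v => (T.G.SC.D a (F.w v)).1 p := by
  simp only [w_pr, Nq.Dt.Dw_val Jt _ hp]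
  exact HD.of ((σ.evL p).comp ((Jt.J1 a).comp (F.pr σ))).hasFDerivAt

theorem hd_Y (c : Fin 3) : HD ℂ (fun z : F.Ξ σ => (F.Y z c).1 p) ξ fun v => (F.dY ξ v c).1 p :=
  F.D.hd_Xh (F.diff_TT ξ) (F.hd_w Jt hp ξ) c

theorem hd_DY (a c : Fin 3) : HD ℂ (fun z : F.Ξ σ => (T.G.SC.D a (F.Y z c)).1 p) ξ
    fun v => (T.G.SC.D a (F.dY ξ v c)).1 p :=
  F.D.hd_D_Xh (F.diff_TT ξ) (F.hd_w Jt hp ξ) a (F.hd_Dw Jt hp ξ a) c

omit hp

theorem pk_w : T.G.PK T.Kz (F.w ξ) := by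
  obtain ⟨C, -, h⟩ := Rm.sz_wG Jt
  exact Geo.pk_ρ fun p hp => (h _ p hp).h0

theorem pk_dY (v : F.Ξ σ) (c : Fin 3) : T.G.PK T.Kz (F.dY ξ v c) :=
  F.good.pk_dX (F.pk_w Jt ξ) (F.pk_w Jt v) _ _ c

end Jets

theorem hd_curve {f f' : F.Ξ σ → ℂ} {ξ : ℂ → F.Ξ σ} {v : F.Ξ σ} {t : ℂ} (h : HD ℂ f (ξ t) f')
    (hξ : HasDerivAt ξ v t) : HasDerivAt (fun u => f (ξ u)) (f' v) t := by
  rw [← h.eq]; exact h.diff.hasFDerivAt.comp_hasDerivAt t hξ

variable (σ) in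
/-- the variational calculus of the core on the ball of radius `r` -/
structure Vc (r : ℝ) : Prop where
  r_pos : 0 < r
  fw : ∀ p ∈ T.Kz, ∀ ξ : F.Ξ σ, HD ℂ (fun z : F.Ξ σ => (F.w z).1 p) ξ fun v => (F.w v).1 p
  fY : ∀ p ∈ T.Kz, ∀ (ξ : F.Ξ σ) c,
    HD ℂ (fun z : F.Ξ σ => (F.Y z c).1 p) ξ fun v => (F.dY ξ v c).1 p
  fJ : ∀ p ∈ T.Kz, ∀ (ξ : F.Ξ σ) a c, HD ℂ (fun z : F.Ξ σ => (T.G.SC.D a (F.Y z c)).1 p) ξ
    fun v => (T.G.SC.D a (F.dY ξ v c)).1 p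
  cl : ∀ ξ : F.Ξ σ, ‖ξ‖ < r → ∀ p ∈ T.Kz, T.G.Cl (F.Y ξ) p
  nf : T.G.NFam T.Kz (ball (0 : F.Ξ σ) r) (fun _ => T.G.oR T.ζA) F.Y
  hf : ∀ k, T.G.HFam (tsupport (F.φ k).1) (ball (0 : F.Ξ σ) r)
    (fun z => T.G.oR (F.φ k) * F.w z) F.Y
  tm : ∀ ξ : F.Ξ σ, ‖ξ‖ < r → T.G.TmK T.Kz (F.Y ξ)
  pw : ∀ ξ : F.Ξ σ, T.G.PK T.Kz (F.w ξ)
  pY : ∀ (ξ v : F.Ξ σ) c, T.G.PK T.Kz (F.dY ξ v c)

theorem vc_of (Jt : σ.Jets F.φ) : ∃ r, F.Vc σ r := by
  have h0 : (fun z : F.Ξ σ => T.TT z.2.2) 0 = 0 := T.TT_zero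
  obtain ⟨r, r0, hr⟩ := F.good.cfam Jt (F.pr σ) (T := fun z => T.TT z.2.2)
    (Eventually.of_forall F.diff_TT) h0
  obtain ⟨C, C0, hC⟩ := Rm.sz_wG Jt
  obtain ⟨C', -, hC'⟩ := Rm.sz_Xh F.good
  have k : ∀ᶠ z : F.Ξ σ in 𝓝 0, ‖T.TT z.2.2‖ < 1 ∧ C * ‖F.pr σ z‖ < 1 :=
    ((F.diff_TT (σ := σ)).continuous.continuousAt.norm.eventually (gt_mem_nhds (by
      simp only [Prod.snd_zero, T.TT_zero, norm_zero, zero_lt_one]))).and
    ((continuous_const.mul (F.pr σ).continuous.norm).continuousAt.eventually (gt_mem_nhds (by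
      simp)))
  obtain ⟨s, s0, hs⟩ := Metric.eventually_nhds_iff_ball.1 k
  have sub : ball (0 : F.Ξ σ) (min r s) ⊆ ball 0 r := ball_subset_ball (min_le_left _ _)
  have mono : ∀ {B : ℝ} {g : F.Ξ σ → T.G.SmC}, T.G.CFam T.Kz (ball 0 r) B g F.Y →
      T.G.CFam T.Kz (ball 0 (min r s)) B g F.Y := fun h =>
    ⟨isOpen_ball, fun z hz => h.off z (sub hz), fun z hz => h.bd z (sub hz),
      fun z hz => h.cl z (sub hz), fun p hp => (h.hg p hp).mono sub,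
      fun p hp c => (h.hY p hp c).mono sub, fun p hp a c => (h.hJ p hp a c).mono sub⟩
  have hA := mono (hr T.ζA 1 (fun p => T.ζA_Kz) fun p => by
    rw [abs_of_nonneg (T.ze_nonneg _ _ p)]; exact T.ze_le_one _ _ p).1
  have cl : ∀ ξ : F.Ξ σ, ‖ξ‖ < min r s → ∀ p ∈ T.Kz, T.G.Cl (F.Y ξ) p := fun ξ h =>
    hA.cl ξ (mem_ball_zero_iff.2 h)
  refine ⟨min r s, lt_min r0 s0, fun p hp ξ => F.hd_w Jt hp ξ, fun p hp ξ => F.hd_Y Jt hp ξ,
    fun p hp ξ => F.hd_DY Jt hp ξ, cl, hA.nfam T.closed_Kz, fun k => ?_, fun ξ h => ?_,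
    F.pk_w Jt, F.pk_dY Jt⟩
  · obtain ⟨B, hB⟩ := (Geo.cont (F.φ k)).bounded_above_of_compact_support (F.cs_φ k)
    exact (mono (hr (F.φ k) B (fun p hp => F.φ_Kz k (subset_tsupport _ hp)) hB).2).hfam
      (F.cs_φ k) (F.φ_Kz k) fun z _ => closure_mono fun p hp h0 => hp (by
        change ((F.φ k).1 p : ℂ) * _ = 0
        rw [h0]; simp)
  · obtain ⟨a1, a2⟩ := hs ξ (mem_ball_zero_iff.2 (h.trans_le (min_le_right _ _)))
    exact Geo.tmk_of (cl ξ h) (C := C' * 1) fun p hp a b c =>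
      (hC' _ _ 1 p hp le_rfl a1.le ((hC _ p hp).mono a2.le) c).h2 a b

theorem vc : Sg fun σ => ∃ r, F.Vc σ r :=
  (F.grn.nonempty_jets T.G.mainS).mono fun _ h σ e => (h σ e).elim fun Jt => F.vc_of Jt

namespace Vc

variable {F} {r : ℝ} (h : F.Vc σ r) {ξ : F.Ξ σ}
include h


theorem cY {p : S.sl 0} (hp : p ∈ T.Kz) {ξ : ℂ → F.Ξ σ} {v : F.Ξ σ} {t : ℂ}
    (hξ : HasDerivAt ξ v t) (c : Fin 3) :
    HasDerivAt (fun u => (F.Y (ξ u) c).1 p) ((F.dY (ξ t) v c).1 p) t :=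
  F.hd_curve (h.fY p hp (ξ t) c) hξ

theorem dAC (hξ : ‖ξ‖ < r) : DifferentiableAt ℂ (fun z : F.Ξ σ => T.AC (F.Y z)) ξ :=
  h.nf.diffOn.differentiableAt (isOpen_ball.mem_nhds (mem_ball_zero_iff.2 hξ))





/-- **first variation of the core action** -/
theorem fAC (hξ : ‖ξ‖ < r) (v : F.Ξ σ) : fderiv ℂ (fun z : F.Ξ σ => T.AC (F.Y z)) ξ v =
    ∫ p, T.G.bulkC (T.G.oR T.ζA) (F.Y ξ) (F.dY ξ v) p ∂T.G.M.mu -
      ∫ p, T.G.fluxC (T.G.oR T.ζA) (F.Y ξ) (F.dY ξ v) p ∂T.G.M.mu := by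
  have e := h.nf.fderiv_eq (mem_ball_zero_iff.2 hξ) v (h.tm ξ hξ)
    ((T.sy_ze (by norm_num) (by norm_num)).pk_D) (g' := 0) (fun _ _ => rfl)
    (Geo.pk_bdd (C := 0) fun _ _ => norm_zero.le) (h.pY ξ v) (fun p _ => by simp)
    (fun p hp c => (h.fY p hp ξ c).eq v) fun p hp a c => (h.fJ p hp ξ a c).eq v
  have e0 : T.G.actC 0 (F.Y ξ) = 0 := by simp [Geo.actC, Geo.lagC]
  rw [e0, zero_add] at e
  exact e


theorem dII (hξ : ‖ξ‖ < r) (k : F.I) : DifferentiableAt ℂ (fun z : F.Ξ σ => F.II z k) ξ :=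
  (h.hf k).diffOn.differentiableAt (isOpen_ball.mem_nhds (mem_ball_zero_iff.2 hξ))

theorem dII' (hξ : ‖ξ‖ < r) : DifferentiableAt ℂ (F.II (σ := σ)) ξ :=
  differentiableAt_pi.2 (h.dII hξ)

theorem fII_apply (hξ : ‖ξ‖ < r) (v : F.Ξ σ) (k : F.I) :
    fderiv ℂ F.II ξ v k = fderiv ℂ (fun z : F.Ξ σ => F.II z k) ξ v := by
  rw [show F.II (σ := σ) = fun z k => F.II z k from rfl, fderiv_pi (h.dII hξ)]
  rfl

end Vc

end Fa

end R0

end Crest.Agent.N250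

end
end

-- ▼ part N250/Fv/VarL

/-!
# Row 250 (helper75): the leaf `VarL`
-/

set_option autoImplicit false
open MeasureTheory Set Filter Topology
open Crest.GeometryTopology.MCF

noncomputable section

namespace Crest.Agent.N250.R0.Vc

open WS Wr B1 Gc

variable {S : Mv} {T : St S} {F : Fa T} {σ : Scale T.G} {r0 : ℝ}

theorem core (V : F.Vc σ r0) {N : ℕ} {X : ℂ} {a : Fin T.p → ℂ} {z : F.Ξ σ} (hz : ‖z‖ < r0)
    (M : F.Mat N X a z) (v : F.Ξ σ) : fderiv ℂ (fun z : F.Ξ σ => T.AC (F.Y z)) z v =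
      ∑ k, F.c z k * fderiv ℂ F.II z v k -
        ∫ p, T.G.fluxC (T.G.oR T.ζA) (F.Y z) (F.dY z v) p ∂T.G.M.mu := by
  have h := (bk M (u' := F.w v) (V := F.dY z v) fun k p hp c => F.dY_core z v hp c).fam
    (w := F.w) (T := fun z : F.Ξ σ => T.TT z.2.2) (mem_ball_zero_iff.2 hz) v V.hf
    (fun k p hp => ⟨(V.fw p (F.φ_Kz k hp) z).eq v, (V.fw p (F.φ_Kz k hp) z).diff⟩)
    (fun k p hp c => (V.fY p (F.φ_Kz k hp) z c).eq v)
    fun k p hp a c => (V.fJ p (F.φ_Kz k hp) z a c).eq v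
  rw [V.fAC hz]
  simp only [V.fII_apply hz]
  exact congrArg (· - _) h.2

theorem varD (hG : T.Good) (V : F.Vc σ r0) : F.VarD σ := by
  refine ⟨min r0 1, lt_min V.r_pos one_pos, fun N ξ r X1 θ h => ?_⟩
  obtain ⟨CT, hT⟩ := tq_bd h hG (min_le_right _ _)
  refine ⟨CT, fun X hX w hw δ v => ⟨_, fun j => (norm_neg _).trans_le (hT X hX w hw j _), ?_⟩⟩
  have hq := mem_Om h hX hw
  have hz := (h.small _ hq).1.trans_le (min_le_left _ _)
  have e : fderiv ℂ (fun q => F.II (ξ q)) (X, w) (δ, v) =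
      fderiv ℂ F.II (ξ (X, w)) (fderiv ℂ ξ (X, w) (δ, v)) :=
    congrArg (· (δ, v)) (fderiv_comp _ (V.dII' hz) (d_ξ h hq))
  rw [e]
  refine fd_A h hq hG (V.dAC hz) (δ, v) (fun p hp c => ?_) (core V hz (h.mat _ hq) _)
  have := V.cY hp (hd_line (d_ξ h hq) (δ, v)) c
  rwa [zero_smul, add_zero] at this

theorem varL : VarL := fun _ _ hG F => F.vc.mono fun _ h _ => h.elim fun _ V => varD hG V

end Crest.Agent.N250.R0.Vc

end
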